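import Vale.Agent.P366RY.Nrm

/-!
# P366RY: the identity of Raychaudhuri for an arbitrary function
-/

set_option linter.all false

open Filter Topology Matrix
open scoped ContDiff
open Vale.Agent.P366.Stmt Vale.Agent.P366XR
open Vale.Agent.P366Z hiding dd
open Vale.Agent.P366Y.C (rc)

noncomputable section

namespace Vale.Agent.P366RY

variable {n : ℕ} {g K T : Field n} {x : E n} {u N f : E n → ℝ} {X : Vf n}

/-- the Hamiltonian along the differential of `u` -/
def ph (g : Field n) (N : E n → ℝ) (X : Vf n) (u : E n → ℝ) (y : E n) : ℝ :=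
  N y * gn g u y - D X u y

/-- the inaffinity -/
def sig (g K : Field n) (N u : E n → ℝ) (y : E n) : ℝ :=
  D (nrm g u) N y + N y * bl K (nrm g u) (nrm g u) y

theorem kid_mat (hk : Kid g K N X x) :
    mat g x * Dm g X x + (mat g x * Dm g X x)ᵀ = (-2 * N x) • mat K x := by
  ext i j
  have h := hk i j
  rw [Finset.sum_add_distrib, add_comm] at h
  exact h

theorem ev_el (g : Field n) (N : E n → ℝ) (X : Vf n) (u : E n → ℝ) (x : E n) :
    ev (el g N X u) x = N x • ev (nrm g u) x - ev X x := rfl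

theorem dd_mul {h : E n → ℝ} (hf : DifferentiableAt ℝ f x) (hh : DifferentiableAt ℝ h x) :
    dd (fun y => f y * h y) x = h x • dd f x + f x • dd h x := by
  ext k
  simp only [dd, pd_mul hf hh, Pi.add_apply, Pi.smul_apply, smul_eq_mul, mul_comm]

theorem dd_sub {h : E n → ℝ} (hf : DifferentiableAt ℝ f x) (hh : DifferentiableAt ℝ h x) :
    dd (fun y => f y - h y) x = dd f x - dd h x := funext fun k => pd_sub hf hh k

theorem dd_add {h : E n → ℝ} (hf : DifferentiableAt ℝ f x) (hh : DifferentiableAt ℝ h x) :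
    dd (fun y => f y + h y) x = dd f x + dd h x := funext fun k => pd_add hf hh k

theorem dd_congr {h : E n → ℝ} (e : f =ᶠ[𝓝 x] h) : dd f x = dd h x :=
  funext fun k => pd_congr e k

theorem dd_ph (hg : Met g) (hu : ContDiffAt ℝ 2 u x) (hw : gn g u x ≠ 0)
    (hN : DifferentiableAt ℝ N x) (hX : Df X x) : dd (ph g N X u) x =
      mat (hess g u) x *ᵥ ev (el g N X u) x +
        gn g u x • (dd N x - (mat g x *ᵥ ev (nrm g u) x) ᵥ* Dm g X x) := by
  have h := dd_sub (hN.fun_mul (df_gn hg hu hw)) (df_D hX hu)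
  rw [dd_mul hN (df_gn hg hu hw), dd_gn hg hu hw, dd_D g hX hu, dd_eq hg hw, smul_vecMul] at h
  refine h.trans ?_
  rw [ev_el, mulVec_sub, mulVec_smul, smul_sub]
  abel

theorem Zf_ph (hg : Met g) (hu : ContDiffAt ℝ 2 u x) (hw : gn g u x ≠ 0)
    (hN : DifferentiableAt ℝ N x) (hX : Df X x) (hk : Kid g K N X x) :
    ev (Zf g u (ph g N X u)) x = Dm g (nrm g u) x *ᵥ ev (el g N X u) x +
      ((mat g x)⁻¹ *ᵥ dd N x + (2 * N x) • (mat g x)⁻¹ *ᵥ mat K x *ᵥ ev (nrm g u) x +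
        Dm g X x *ᵥ ev (nrm g u) x - sig g K N u x • ev (nrm g u) x) := by
  rw [ev_Zf, dd_ph hg hu hw hN hX, mulVec_add, smul_add, mulVec_smul, smul_smul,
    inv_mul_cancel₀ hw, one_smul, Dm_nrm hg hu hw, smul_mulVec, mulVec_mulVec]
  congr 1
  exact kid_vec (P366XR.inv_mul hg x) (kid_mat hk) (mat_sy hg x) rfl

theorem cX_el (g K : Field n) (a : ℝ) (v w : Fin n → ℝ) (x : E n) :
    cX g K (a • v - w) x = a • cX g K v x - cX g K w x := by
  simp only [cX, Pi.sub_apply, Pi.smul_apply, smul_eq_mul, sub_smul, mul_smul,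
    Finset.sum_sub_distrib, Finset.smul_sum]

theorem EE_eq (g K : Field n) (N : E n → ℝ) (X : Vf n) (x : E n) : mat (EE g K N X) x =
    mat (hess g N) x + (cX g K (ev X x) x + (Dm g X x)ᵀ * mat K x + mat K x * Dm g X x) -
      N x • (mat (rc g) x + tr g K x • mat K x -
        (2 : ℝ) • (mat K x * ((mat g x)⁻¹ * mat K x))) := by
  ext i j
  simp only [cX, cM, Dm, ev, Matrix.add_apply, Matrix.sub_apply, Matrix.smul_apply,
    Matrix.sum_apply, mul_apply, transpose_apply, of_apply, smul_eq_mul]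
  simp only [mat, EE, up, Finset.sum_add_distrib,
    Finset.mul_sum, mul_assoc, mul_comm (K x _ j) (P366P.cd g X _ i x)]

theorem Nc_eq (hg : Met g) (hK : Sm K) (hs : ∀ i j, K x i j = K x j i) : Nc g K N X u x =
    N x * (trace ((mat g x)⁻¹ * mat (rc g) x) + tr g K x ^ 2 -
      trace ((mat g x)⁻¹ * (mat K x * ((mat g x)⁻¹ * mat K x)))) +
    2 * N x * (ev (dvT g K) x ⬝ᵥ ev (nrm g u) x -
      trace ((mat g x)⁻¹ * cX g K (ev (nrm g u) x) x)) +
    trace (Pj g u x * mat (EE g K N X) x) := by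
  rw [Nc, trS_eq hg, mu, scal_eq hg, normSq_eq hg hs, ← D_tr hg hK]
  simp only [mom_eq hg hK, sub_mul, Finset.sum_sub_distrib, D, dotProduct, ev, dd,
    mul_comm (nrm g u _ x)]
  ring

theorem df_sig (hg : Met g) (hK : Sm K) (hu : ContDiffAt ℝ 2 u x) (hw : gn g u x ≠ 0)
    (hN : ContDiffAt ℝ 2 N x) : DifferentiableAt ℝ (sig g K N u) x :=
  (df_D (df_nrm hg hu hw) hN).fun_add ((diff2 hN).fun_mul
    (df_bl hK (df_nrm hg hu hw) (df_nrm hg hu hw)))

theorem ev_reg (hg : Met g) (hu : ContDiffAt ℝ 3 u x) (hw : gn g u x ≠ 0) :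
    ∀ᶠ y in 𝓝 x, ContDiffAt ℝ 2 u y ∧ gn g u y ≠ 0 := by
  have h2 : ContDiffAt ℝ 2 u x := hu.of_le (by norm_num)
  exact (h2.eventually (by simp)).and ((df_gn hg h2 hw).continuousAt.eventually_ne hw)

theorem theta_ev (hg : Met g) (hu : ContDiffAt ℝ 3 u x) (hw : gn g u x ≠ 0) :
    thetaPlus g K u =ᶠ[𝓝 x] fun y =>
      dv g (nrm g u) y + (tr g K y - bl K (nrm g u) (nrm g u) y) :=
  (ev_reg hg hu hw).mono fun _ hy => theta_eq hg hy.1 hy.2

theorem df_dv (hg : Met g) (hX : C2 X x) : DifferentiableAt ℝ (dv g X) x :=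
  (DifferentiableAt.fun_sum fun i _ => P366P.diff_cd hg hX i i).congr_of_eventuallyEq
    (P366P.dv_ev hg hX)

theorem df_theta (hg : Met g) (hK : Sm K) (hu : ContDiffAt ℝ 3 u x) (hw : gn g u x ≠ 0) :
    DifferentiableAt ℝ (thetaPlus g K u) x :=
  ((df_dv hg (c2_nrm hg hu hw)).fun_add (((sm_tr hg hK).diff x).fun_sub
    (df_bl hK (c2_nrm hg hu hw).df (c2_nrm hg hu hw).df))).congr_of_eventuallyEq
      (theta_ev hg hu hw)

/-- the identity of Raychaudhuri -/
theorem ident (hg : Met g) (hK : Sm K) (hs : ∀ i j, K x i j = K x j i)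
    (hN : ContDiffAt ℝ 2 N x) (hX : C2 X x) (hu : ContDiffAt ℝ 3 u x) (hw : gn g u x ≠ 0)
    (hk : ∀ᶠ y in 𝓝 x, Kid g K N X y) :
    D (el g N X u) (thetaPlus g K u) x - dv g (Zf g u (ph g N X u)) x +
        2 * ev (Zf g u (ph g N X u)) x ⬝ᵥ mat K x *ᵥ ev (nrm g u) x =
      sig g K N u x * thetaPlus g K u x - N x * trace ((Dm g (nrm g u) x + Pj g u x * mat K x) *
        (Dm g (nrm g u) x + Pj g u x * mat K x)) - Nc g K N X u x := by
  have h2 : ContDiffAt ℝ 2 u x := hu.of_le (by norm_num)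
  have hν := c2_nrm hg hu hw
  have hN1 := diff2 hN
  have hl : Df (el g N X u) x := fun i => (hN1.fun_mul (hν.df i)).fun_sub (hX.df i)
  have hσ := df_sig hg hK h2 hw hN
  have d1 := df_nab hg hl hν
  have d2 : Df (gr g N) x := hg.diff_gr hN
  have d3 := df_hi hg (df_lo hK hν.df)
  have d4 : DifferentiableAt ℝ (fun y => 2 * N y) x := hN1.const_mul 2
  have d5 : Df (fun i y => 2 * N y * hi g (lo K (nrm g u)) i y) x := fun i => d4.fun_mul (d3 i)
  have d6 := df_nab hg hν.df hX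
  have d7 : Df (fun i y => sig g K N u y * nrm g u i y) x := fun i => hσ.fun_mul (hν.df i)
  have d8 : Df (fun i y => gr g N i y + 2 * N y * hi g (lo K (nrm g u)) i y) x := fun i =>
    (d2 i).fun_add (d5 i)
  have d9 : Df (fun i y => gr g N i y + 2 * N y * hi g (lo K (nrm g u)) i y +
      nab g (nrm g u) X i y) x := fun i => (d8 i).fun_add (d6 i)
  have d10 : Df (fun i y => gr g N i y + 2 * N y * hi g (lo K (nrm g u)) i y +
      nab g (nrm g u) X i y - sig g K N u y * nrm g u i y) x := fun i => (d9 i).fun_sub (d7 i)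
  have e1 : dv g (Zf g u (ph g N X u)) x = dv g (fun i y => nab g (el g N X u) (nrm g u) i y +
      (gr g N i y + 2 * N y * hi g (lo K (nrm g u)) i y + nab g (nrm g u) X i y -
        sig g K N u y * nrm g u i y)) x := by
    refine dv_congr fun i => ?_
    filter_upwards [ev_reg hg hu hw, ev_diff hN, hX.ev, hk] with y a1 a2 a3 a4
    exact congrFun (Zf_ph hg a1.1 a1.2 a2 a3 a4) i
  have e2 : dv g X =ᶠ[𝓝 x] fun y => (0 : ℝ) - N y * tr g K y := by
    filter_upwards [hX.ev, hk] with y a3 a4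
    rw [dv_eq hg a3, kid_tr1 (mat_sy hg y) (P366XR.inv_mul hg y) (P366XR.mul_inv hg y)
      (kid_mat a4), tr_eq hg]
    ring
  have e3 : D (nrm g u) (dv g X) x = -(ev (nrm g u) x ⬝ᵥ dd N x * tr g K x +
      N x * trace ((mat g x)⁻¹ * cX g K (ev (nrm g u) x) x)) := by
    rw [← D_tr hg hK, D, D, dd_congr e2, dd_sub (differentiableAt_const _)
      (hN1.fun_mul ((sm_tr hg hK).diff x)), dd_mul hN1 ((sm_tr hg hK).diff x),
      show dd (fun _ => (0 : ℝ)) x = 0 from funext fun k => pd_const 0 k x]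
    simp only [zero_sub, dotProduct_neg, dotProduct_add, dotProduct_smul, smul_eq_mul]
    ring
  have e4 : ev (nrm g u) x ⬝ᵥ dd (sig g K N u) x = ev (nrm g u) x ⬝ᵥ (mat (hess g N) x *ᵥ
      ev (nrm g u) x + dd N x ᵥ* Dm g (nrm g u) x) + (ev (nrm g u) x ⬝ᵥ dd N x *
        bl K (nrm g u) (nrm g u) x + N x * D (nrm g u) (bl K (nrm g u) (nrm g u)) x) := by
    have h := dd_add (df_D hν.df hN) (hN1.fun_mul (df_bl hK hν.df hν.df))
    rw [dd_mul hN1 (df_bl hK hν.df hν.df), dd_D g hν.df hN] at h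
    rw [show dd (sig g K N u) x = _ from h, D]
    simp only [dotProduct_add, dotProduct_smul, smul_eq_mul]
    ring
  have e5 : D (el g N X u) (thetaPlus g K u) x = D (el g N X u) (dv g (nrm g u)) x +
      (D (el g N X u) (tr g K) x - D (el g N X u) (bl K (nrm g u) (nrm g u)) x) := by
    rw [D, dd_congr (theta_ev hg hu hw), dd_add (df_dv hg hν) (((sm_tr hg hK).diff x).fun_sub
      (df_bl hK hν.df hν.df)), dd_sub ((sm_tr hg hK).diff x) (df_bl hK hν.df hν.df),
      dotProduct_add, dotProduct_sub]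
    rfl
  have e6 : Dm g (el g N X u) x = N x • Dm g (nrm g u) x + vecMulVec (ev (nrm g u) x) (dd N x) -
      Dm g X x := by
    rw [← Dm_smul g hN1 hν.df]
    exact Dm_sub g (Y := fun i y => N y * nrm g u i y) (fun i => hN1.fun_mul (hν.df i)) hX.df
  have e7 : dd (fun y => 2 * N y) x = (2 : ℝ) • dd N x := funext fun k => pd_const_mul 2 k
  have r1 := ricci2 hg hl hν
  have r2 := ricci2 hg hν.df hX
  have r3 := dv_sh hg hK hν.df
  rw [dv_eq hg d1, e6] at r1
  rw [dv_eq hg d6, e3] at r2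
  rw [dv_eq hg d3] at r3
  have a := alg (HN := mat (hess g N) x) (P := cX g K (ev (nrm g u) x) x) (Q := cX g K (ev X x) x)
    (K := mat K x) (A := Dm g (nrm g u) x) (dT := ev (dvT g K) x) (mat_sy hg x) (inv_sy hg x)
    (P366XR.inv_mul hg x) (P366XR.mul_inv hg x) (Matrix.ext fun i j => hs j i) (rc_sy hg x)
    (kid_mat hk.self_of_nhds) (σ := sig g K N u x) (v := ev (nrm g u) x) (dN := dd N x) rfl
    (tr_eq hg K x) (ev_el g N X u x)
  rw [e1, dv_eq hg fun i => (d1 i).fun_add (d10 i), Dm_add g d1 d10, Dm_sub g d9 d7,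
    Dm_add g d8 d6, Dm_add g d2 d5, Dm_smul g d4 d3, Dm_smul g hσ hν.df, Dm_gr hg hN, e5,
    D_tr hg hK, D_bl g hK hν.df hν.df, Zf_ph hg h2 hw hN1 hX.df hk.self_of_nhds, Nc_eq hg hK hs,
    EE_eq, theta_eq hg h2 hw, dv_eq hg hν.df, e7]
  simp only [trace_add, trace_sub, trace_smul, trace_vecMulVec, smul_eq_mul, r1, r2, r3, e4,
    D_bl g hK hν.df hν.df, dotProduct_smul, ev_hi, ev_lo]
  rw [ev_el g N X u x, cX_el, ← ev_el g N X u x]
  simp only [bl, Pj]
  linear_combination a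

end Vale.Agent.P366RY
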