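import Vale.Agent.P366RY.Coef
import Vale.Agent.P366Z.Boch

/-!
# P366RY: conformal variations
-/

set_option linter.all false

open Filter Topology
open scoped ContDiff
open Vale.Agent.P366.Stmt
open Vale.Agent.P366Z hiding Wt CONF
open Vale.Agent.P366Y.C (rc Sy)
open Vale.Agent.P366XR (cT Sm sm_tr mom_eq)
open Vale.Agent.P366K.C

noncomputable section

namespace Vale.Agent.P366RY

variable {n : ℕ} {g K H Q A : Field n} {x : E n} {φ ψ u F : E n → ℝ}

theorem tr_g (hg : Met g) (x : E n) : tr g g x = n := by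
  calc _ = ∑ _i : Fin n, (1 : ℝ) := Finset.sum_congr rfl fun i _ => by
        have := hg.up_mul i i x
        rw [if_pos rfl] at this
        rw [← this]
        exact Finset.sum_congr rfl fun j _ => by rw [hg.sy x i j]
    _ = n := by simp

theorem pr_g (hg : Met g) (A : Field n) (x : E n) : pr g A g x = tr g A x :=
  Boch.bil_g hg x (A x)

theorem ml_g (hg : Met g) (A : Field n) (x : E n) (i j : Fin n) : ml g g A x i j = A x i j := by
  rw [← hg.g_up_mul x i fun l => A x l j]
  simp only [ml, Finset.mul_sum, mul_assoc]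

theorem tr_momT (hg : Met g) (K : Field n) (x : E n) :
    tr g (momT g K) x = (1 - n) * tr g K x := by
  have h := tr_smul g g (tr g K) x
  rw [tr_g hg] at h
  simp only [tr, momT, mul_sub, Finset.sum_sub_distrib] at h ⊢
  linarith

theorem pr_momT (hg : Met g) (K A : Field n) (x : E n) :
    pr g (momT g K) A x = pr g K A x - tr g K x * tr g A x := by
  have h := pr_smul' g A g (tr g K) x
  rw [pr_comm hg g A, pr_g hg] at h
  rw [← h]
  simp only [pr, momT, mul_sub, sub_mul, Finset.sum_sub_distrib]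

theorem mom_fg (hg : Met g) (hφ : Smooth φ) (j : Fin n) (x : E n) :
    mom g (fun y i j => φ y * g y i j) j x = (1 - n) * pd j φ x := by
  have e : momT g (fun y i j => φ y * g y i j) = fun y i j => (1 - n) * φ y * g y i j := by
    funext y i j
    simp only [momT, tr_smul, tr_g hg]
    ring
  have h := dvT_fg hg ((hφ.diff x).const_mul (1 - n)) j
  rw [← e, pd_const_mul] at h
  exact h

theorem conf1 (hg : Met g) (hK : Sy K) (hu : Smooth u) (x : E n) :
    Lmu g K (fun y i j => 2 * u y * g y i j) (fun y i j => u y * K y i j) x =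
      -2 * u x * mu g K x - (n - 1) * lap g u x := by
  have h2 : Smooth fun y => 2 * u y := contDiff_const.mul hu
  have e : rs g (mom g fun y i j => 2 * u y * g y i j) = fun i y => (1 - n) * 2 * gr g u i y := by
    funext i y
    simp only [rs, gr, mom_fg hg h2, pd_const_mul, Finset.mul_sum]
    exact Finset.sum_congr rfl fun _ _ => by ring
  have e2 : normSq g K x = pr g K K x := rfl
  rw [Lmu, e, dv_const_mul, pr_smul g _ g (fun y => 2 * u y), pr_smul g _ g (fun y => 2 * u y),
    pr_smul g _ g (fun y => 2 * u y), pr_smul, pr_momT hg, pr_g hg, pr_g hg, pr_g hg,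
    ← pr_ml hg K (hK.sy x), mu, P366P.scal_eq_tr hg, e2, lap]
  ring

theorem conf2 (hg : Met g) (hK : Sy K) (hu : Smooth u) (x : E n) (j : Fin n) :
    Lmo g K (fun y i j => 2 * u y * g y i j) (fun y i j => u y * K y i j) j x =
      -2 * u x * mom g K j x + (n - 1) * ∑ a, K x j a * gr g u a x := by
  have e : Wt g K (fun y i j => 2 * u y * g y i j) (fun y i j => u y * K y i j) =
      fun y i j => (n - 1) * u y * K y i j := by
    rw [Wt_smul g K g K (fun y => 2 * u y) u]
    funext y i j
    have e : momT g (fun _ _ _ => (0 : ℝ)) y i j = 0 := by simp [momT, tr]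
    simp only [Wt, e, pr_g hg, tr_momT hg, ml_g hg, tr_g hg]
    simp only [momT]
    ring
  have h3 : Smooth fun y => (n - 1) * u y := contDiff_const.mul hu
  have e2 : tr g (fun y a b => cT g (momT g K) j a b y) x = (1 - n) * pd j (tr g K) x := by
    rw [← pd_const_mul, ← funext (tr_momT hg K), P366XR.pd_tr hg (sm_momT hg hK.sm),
      P366XR.tr_eq hg]
    rfl
  have e3 : ∑ a, 2 * u x * g x j a * rs g (mom g K) a x = 2 * u x * mom g K j x := by
    rw [← hg.g_up_mul x j fun l => mom g K l x, Finset.mul_sum]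
    simp only [rs, mul_assoc]
  have e4 : ∑ a, (∑ i, up g i a x * K x i j) * ((n - 1) * pd a u x) =
      (n - 1) * ∑ a, K x j a * gr g u a x := by
    simp only [gr, Finset.mul_sum, Finset.sum_mul]
    rw [Finset.sum_comm]
    exact Finset.sum_congr rfl fun i _ => Finset.sum_congr rfl fun a _ => by
      rw [hK.sy x i j]; ring
  rw [Lmo, Lmom, e, dvT_smul' g h3 hK.sm, tr_smul g g (fun y => 2 * u y),
    pr_smul' g _ g (fun y => 2 * u y), pr_comm hg, pr_g hg, e2, e3, tr_g hg, mom_eq hg hK.sm]
  simp only [pd_const_mul, e4]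
  ring

theorem up_sc (hg : Met g) (h0 : φ x ≠ 0) (i j : Fin n) :
    up (fun y i j => φ y * g y i j) i j x = (φ x)⁻¹ * up g i j x := by
  have : (mat (fun y i j => φ y * g y i j) x)⁻¹ = (φ x)⁻¹ • (mat g x)⁻¹ := by
    refine Matrix.inv_eq_left_inv ?_
    rw [show mat (fun y i j => φ y * g y i j) x = φ x • mat g x from rfl, Matrix.smul_mul,
      Matrix.mul_smul, smul_smul, inv_mul_cancel₀ h0, one_smul, P366XR.inv_mul hg]
  rw [up, this]
  rfl

theorem hess_sc (hg : Met g) (hφ : DifferentiableAt ℝ φ x) (h0 : φ x ≠ 0) (i j : Fin n) :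
    hess (fun y i j => φ y * g y i j) F x i j = hess g F x i j - (2 * φ x)⁻¹ *
      (pd i φ x * pd j F x + pd j φ x * pd i F x - ip g F φ x * g x i j) := by
  have e : ∀ k, chr (fun y i j => φ y * g y i j) k i j x = chr g k i j x + (2 * φ x)⁻¹ *
      (pd i φ x * (∑ l, up g k l x * g x l j) + pd j φ x * (∑ l, up g k l x * g x l i) -
        gr g φ k x * g x i j) := fun k => by
    simp only [chr, gr, up_sc hg h0, fun a b c => pd_mul hφ ((hg.sm a b).diff x) c,
      Finset.mul_sum, Finset.sum_mul, ← Finset.sum_add_distrib, ← Finset.sum_sub_distrib,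
      Finset.sum_div]
    refine Finset.sum_congr rfl fun l _ => ?_
    rw [hg.sy x l j, hg.sy x l i]
    field_simp
    ring
  have e2 : ∀ i, ∑ k, (∑ l, up g k l x * g x l i) * pd k F x = pd i F x := fun i => by
    simp [hg.up_mul]
  have e3 : ∑ k, chr (fun y i j => φ y * g y i j) k i j x * pd k F x =
      ∑ k, chr g k i j x * pd k F x + (2 * φ x)⁻¹ *
        (pd i φ x * ∑ k, (∑ l, up g k l x * g x l j) * pd k F x +
          pd j φ x * ∑ k, (∑ l, up g k l x * g x l i) * pd k F x -
            (∑ k, pd k F x * gr g φ k x) * g x i j) := by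
    rw [Finset.mul_sum, Finset.mul_sum, Finset.sum_mul, ← Finset.sum_add_distrib,
      ← Finset.sum_sub_distrib, Finset.mul_sum, ← Finset.sum_add_distrib]
    exact Finset.sum_congr rfl fun k _ => by rw [e]; ring
  rw [hess, e3, e2, e2, ← ip_eq_gr, hess]
  ring

theorem theta_sc (hg : Met g) (hφ : DifferentiableAt ℝ φ x) (h0 : 0 < φ x)
    (hw : gn g F x ≠ 0) (K : Field n) (c : ℝ) {K' : Field n} (hc : ∀ i j, K' x i j = c * K x i j) :
    thetaPlus (fun y i j => φ y * g y i j) K' F x = (√(φ x))⁻¹ * (trS g (hess g F) F x / gn g F x +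
      (n - 1) * (∑ a, nrm g F a x * pd a φ x) / (2 * φ x)) + c / φ x * trS g K F x := by
  obtain ⟨r, hr, e⟩ : ∃ r, 0 < r ∧ φ x = r ^ 2 := ⟨_, Real.sqrt_pos.2 h0, (Real.sq_sqrt h0.le).symm⟩
  have e1 : covNorm (fun y i j => φ y * g y i j) (fun j => pd j F) x = gn g F x / r := by
    simp only [covNorm, up_sc hg h0.ne', mul_assoc, ← Finset.mul_sum]
    rw [e, Real.sqrt_mul (by positivity), Real.sqrt_inv, Real.sqrt_sq hr.le, div_eq_inv_mul]
    simp only [gn, ip, mul_assoc]
  have e2 : ∀ i, nrm (fun y i j => φ y * g y i j) F i x = nrm g F i x / r := fun i => by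
    rw [nrm, e1, nrm, ← gn_eq_covNorm]
    simp only [up_sc hg h0.ne', mul_assoc, ← Finset.mul_sum, e]
    field_simp
  have e3 : ∀ T : Field n, trS (fun y i j => φ y * g y i j) T F x = trS g T F x / r ^ 2 :=
    fun T => by
      simp only [trS, tr, e2, up_sc hg h0.ne', e, sub_div, Finset.sum_div]
      congr 1 <;> exact Finset.sum_congr rfl fun _ _ => Finset.sum_congr rfl fun _ _ => by ring
  have e4 : ∀ i, gr g F i x = gn g F x * nrm g F i x := fun i => by
    rw [nrm, ← gn_eq_covNorm, mul_div_cancel₀ _ hw, gr]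
  have e5 : ∑ i, pd i F x * nrm g F i x = gn g F x := by
    have h := hg.gn_sq F x
    rw [ip_eq_gr] at h
    simp only [e4, mul_left_comm _ (gn g F x), ← Finset.mul_sum, sq] at h
    exact (mul_left_cancel₀ hw h).symm
  have e6 : ip g F φ x = gn g F x * ∑ a, nrm g F a x * pd a φ x := by
    rw [hg.ip_sy, ip_eq_gr, Finset.mul_sum]
    exact Finset.sum_congr rfl fun _ _ => by rw [e4]; ring
  have e7 : ∑ i, ∑ j, g x i j * nrm g F i x * nrm g F j x = 1 := by
    have h : ∀ i, ∑ j, g x i j * nrm g F i x * nrm g F j x = pd i F x * nrm g F i x / gn g F x :=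
      fun i => by
        rw [← hg.g_up_mul x i fun l => pd l F x, Finset.sum_mul, Finset.sum_div]
        refine Finset.sum_congr rfl fun j _ => ?_
        rw [show ∑ l, up g j l x * pd l F x = _ from e4 j]
        field_simp
    simp only [h, ← Finset.sum_div, e5, div_self hw]
  have e8 : trS g (hess (fun y i j => φ y * g y i j) F) F x =
      trS g (hess g F) F x + (n - 1) * ip g F φ x / (2 * φ x) := by
    have t1 := tr_g hg x
    have t2 : ∑ i, ∑ j, up g i j x * (pd j φ x * pd i F x) = ip g F φ x :=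
      Finset.sum_congr rfl fun _ _ => Finset.sum_congr rfl fun _ _ => by ring
    have t3 : ∑ i, ∑ j, up g i j x * (pd i φ x * pd j F x) = ip g F φ x := by
      rw [hg.ip_sy]; simp only [ip, mul_assoc]
    have t4 : ∑ i, ∑ j, pd i φ x * pd j F x * nrm g F i x * nrm g F j x = ip g F φ x := by
      rw [e6, ← e5, mul_comm, Finset.sum_mul_sum]
      exact Finset.sum_congr rfl fun _ _ => Finset.sum_congr rfl fun _ _ => by ring
    have t5 : ∑ i, ∑ j, pd j φ x * pd i F x * nrm g F i x * nrm g F j x = ip g F φ x := by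
      rw [e6, ← e5, Finset.sum_mul_sum]
      exact Finset.sum_congr rfl fun _ _ => Finset.sum_congr rfl fun _ _ => by ring
    have t6 : ∀ w : Fin n → Fin n → ℝ, ∑ i, ∑ j, w i j *
        hess (fun y i j => φ y * g y i j) F x i j = ∑ i, ∑ j, w i j * hess g F x i j -
          (2 * φ x)⁻¹ * (∑ i, ∑ j, w i j * (pd i φ x * pd j F x) +
            ∑ i, ∑ j, w i j * (pd j φ x * pd i F x) - ip g F φ x * ∑ i, ∑ j, w i j * g x i j) := by
      intro w
      simp only [Finset.mul_sum, ← Finset.sum_add_distrib, ← Finset.sum_sub_distrib]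
      exact Finset.sum_congr rfl fun i _ => Finset.sum_congr rfl fun j _ => by
        rw [hess_sc hg hφ h0.ne']; ring
    have t7 : ∀ T : Fin n → Fin n → ℝ, ∑ i, ∑ j, T i j * nrm g F i x * nrm g F j x =
        ∑ i, ∑ j, nrm g F i x * nrm g F j x * T i j := fun T =>
      Finset.sum_congr rfl fun _ _ => Finset.sum_congr rfl fun _ _ => by ring
    rw [t7 fun i j => pd i φ x * pd j F x] at t4
    rw [t7 fun i j => pd j φ x * pd i F x] at t5
    rw [t7 (g x)] at e7
    rw [tr] at t1
    rw [trS, trS, tr, tr, t7, t7, t6, t6, t1, t2, t3, t4, t5, e7]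
    ring
  have e9 : trS g K' F x = c * trS g K F x := by
    simp only [trS, tr, hc, mul_sub, Finset.mul_sum, mul_left_comm c, mul_assoc]
  rw [thetaPlus, e1, e3, e3, e8, e9, e6, e, Real.sqrt_sq hr.le]
  field_simp

theorem conf : CONF := by
  intro n g K u x hg hK hu
  refine ⟨conf1 hg hK hu x, conf2 hg hK hu x, fun F hF ⟨i, hi⟩ => ?_⟩
  have hw : gn g F x ≠ 0 := (Real.sqrt_pos.2 (hg.up_pos x (ξ := fun i => pd i F x)
    fun h => hi (congrFun h i))).ne'
  have h1 : HasDerivAt (fun t : ℝ => 1 + t * (2 * u x)) (2 * u x) 0 := by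
    simpa using ((hasDerivAt_id (0 : ℝ)).mul_const (2 * u x)).const_add 1
  have h2 : HasDerivAt (fun t : ℝ => 1 + t * u x) (u x) 0 := by
    simpa using ((hasDerivAt_id (0 : ℝ)).mul_const (u x)).const_add 1
  have h3 : HasDerivAt (fun t : ℝ => (n - 1 : ℝ) * (t * (2 * ∑ a, nrm g F a x * pd a u x)))
      ((n - 1) * (2 * ∑ a, nrm g F a x * pd a u x)) 0 := by
    simpa using ((hasDerivAt_id (0 : ℝ)).mul_const _).const_mul (n - 1 : ℝ)
  have h4 := (((h1.sqrt (by simp)).fun_inv (by simp)).fun_mul ((h3.fun_div (h1.const_mul 2)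
    (by simp)).const_add (trS g (hess g F) F x / gn g F x))).fun_add
      ((h2.fun_div h1 (by simp)).mul_const (trS g K F x))
  have h5 : ∀ᶠ t : ℝ in 𝓝 0, 0 < 1 + t * (2 * u x) :=
    h1.continuousAt.eventually (lt_mem_nhds (by simp))
  rw [Lth, (h4.congr_of_eventuallyEq (h5.mono fun t ht => ?_)).deriv]
  · rw [thetaPlus, ← gn_eq_covNorm]
    simp
    ring
  · have e : (fun y i j => g y i j + t * (2 * u y * g y i j)) =
        fun y i j => (1 + t * (2 * u y)) * g y i j := by
      funext y i j; ring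
    have hd : DifferentiableAt ℝ (fun y => 1 + t * (2 * u y)) x :=
      (((hu.diff x).const_mul 2).const_mul t).const_add 1
    beta_reduce
    rw [e, theta_sc hg hd ht hw K (1 + t * u x) fun i j => by ring]
    simp only [pd_const_add, pd_const_mul, Finset.mul_sum, mul_left_comm (nrm g F _ x)]

end Vale.Agent.P366RY
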