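import Vale.Agent.P366RY.Coef
import Vale.Agent.P366K.Lin
import Mathlib.Analysis.Calculus.BumpFunction.InnerProduct

/-!
# P366RY: variations by diffeomorphisms
-/

set_option linter.all false

open Filter Topology Metric
open scoped ContDiff
open Vale.Agent.P366.Stmt
open Vale.Agent.P366Z hiding Wt
open Vale.Agent.P366Y.C (rc Sy)
open Vale.Agent.P366XR (Sm)
open Vale.Agent.P366K.C
open Vale.Agent.P366M (jac)
open Vale.Agent.P366P (Ctx C3 PT)

noncomputable section

namespace Vale.Agent.P366RY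

variable {n : ℕ} {g g' K T : Field n} {x : E n} {Y : Fin n → E n → ℝ}

/-- the map `y + t Y y` -/
def fl (Y : Fin n → E n → ℝ) (t : ℝ) (y : E n) : E n := y + t • WithLp.toLp 2 fun i => Y i y

theorem sm_fl (hY : ∀ i, Smooth (Y i)) : ContDiff ℝ ∞ fun p : ℝ × E n => fl Y p.1 p.2 :=
  contDiff_snd.add (contDiff_fst.smul
    (contDiff_euclidean.2 fun i => ContDiff.comp (hY i) contDiff_snd))

theorem sm_fl' (hY : ∀ i, Smooth (Y i)) (t : ℝ) : ContDiff ℝ ∞ (fl Y t) :=
  (sm_fl hY).comp (contDiff_const.prodMk contDiff_id)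

theorem jac_fl (hY : ∀ i, Smooth (Y i)) (t : ℝ) (y : E n) (k i : Fin n) :
    jac (fl Y t) y k i = (if k = i then 1 else 0) + t * pd i (Y k) y := by
  have h := pd_add (x := y) ((contDiff_coord (m := 1) k).differentiable (by simp) y)
    (((hY k).diff y).const_mul t) i
  rw [pd_coord, pd_const_mul] at h
  simp only [eq_comm (a := k)]
  exact h

/-- the pull-back by `fl Y t` -/
def pb (T : Field n) (Y : Fin n → E n → ℝ) (t : ℝ) : Field n := fun y i j =>
  ∑ k, ∑ l, jac (fl Y t) y k i * jac (fl Y t) y l j * T (fl Y t y) k l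

theorem hd_fl {f : E n → ℝ} (hf : Smooth f) (Y : Fin n → E n → ℝ) (x : E n) :
    HasDerivAt (fun t => f (fl Y t x)) (∑ a, Y a x * pd a f x) 0 := by
  have h1 : HasDerivAt (fun t : ℝ => fl Y t x) (WithLp.toLp 2 fun i => Y i x) 0 := by
    simpa [fl] using ((hasDerivAt_id (0 : ℝ)).smul_const
      (WithLp.toLp 2 fun i => Y i x : E n)).const_add x
  have h2 := (hf.diff x).hasFDerivAt.comp_hasDerivAt_of_eq 0 h1 (by simp [fl])
  rw [fderiv_eq_sum (hf.diff x)] at h2
  exact h2

theorem hd_jac (hY : ∀ i, Smooth (Y i)) (x : E n) (k i : Fin n) :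
    HasDerivAt (fun t => jac (fl Y t) x k i) (pd i (Y k) x) 0 := by
  simp only [jac_fl hY]
  simpa using (hasDerivAt_id (0 : ℝ)).mul_const (pd i (Y k) x)

theorem fl_zero (Y : Fin n → E n → ℝ) (y : E n) : fl Y 0 y = y := by simp [fl]

theorem fam_pb (hT : Sm T) (hY : ∀ i, Smooth (Y i)) : Fam (pb T Y) T (lie T Y) where
  sm i j := by
    have h : ∀ k i, ContDiff ℝ ∞ fun p : ℝ × E n => jac (fl Y p.1) p.2 k i := fun k i => by
      simp only [jac_fl hY]
      exact contDiff_const.add (contDiff_fst.mul (ContDiff.comp ((hY k).pd i) contDiff_snd))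
    exact ContDiff.sum fun k _ => ContDiff.sum fun l _ =>
      ((h k i).mul (h l j)).mul (ContDiff.comp (hT k l) (sm_fl hY))
  zero := by
    funext y i j
    simp [pb, jac_fl hY, fl_zero]
  der x i j := by
    refine (HasDerivAt.fun_sum (u := Finset.univ) fun k _ =>
      HasDerivAt.fun_sum (u := Finset.univ) fun l _ => ((hd_jac hY x k i).fun_mul
        (hd_jac hY x l j)).fun_mul (hd_fl (hT k l) Y x)).congr_deriv ?_
    simp only [jac_fl hY, fl_zero, zero_mul, add_zero, add_mul, Finset.sum_add_distrib, lie,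
      mul_ite, ite_mul, mul_one, one_mul, mul_zero, Finset.sum_ite_eq', Finset.mem_univ, if_true,
      Finset.sum_ite_irrel, Finset.sum_const_zero, mul_comm (T x _ _)]
    ring

theorem sy_lie (hT : Sy T) (hY : ∀ i, Smooth (Y i)) : Sy (lie T Y) where
  sm i j := ContDiff.sum fun a _ => (((hY a).mul ((hT.sm i j).pd a)).add
    ((hT.sm a j).mul ((hY a).pd i))).add ((hT.sm i a).mul ((hY a).pd j))
  sy x i j := Finset.sum_congr rfl fun a _ => by
    rw [funext fun y => hT.sy y i j, hT.sy x a j, hT.sy x i a]; ring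

theorem mom_ev (e : g =ᶠ[𝓝 x] g') (T : Field n) (j : Fin n) : mom g T j x = mom g' T j x := by
  have h : momT g T =ᶠ[𝓝 x] momT g' T := e.mono fun y hy => by
    funext a b
    simp only [momT, tr, up_of_eq hy, hy]
  have h1 : ∀ i k, pd k (fun y => momT g T y i j) x = pd k (fun y => momT g' T y i j) x :=
    fun i k => pd_congr (h.mono fun y hy => by simp only [hy]) k
  simp only [mom, h1, chr_of_ev e, up_of_eq e.eq_of_nhds, h.eq_of_nhds]

theorem mu_ev (e : g =ᶠ[𝓝 x] g') (T : Field n) : mu g T x = mu g' T x := by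
  simp only [mu, scal_of_ev e, tr, normSq, up_of_eq e.eq_of_nhds]

theorem ex_ctx (hg : Met g) (hY : ∀ i, Smooth (Y i)) {t : ℝ}
    (hd : (jac (fl Y t) x).det ≠ 0) : ∃ g', Ctx (fl Y t) g g' x ∧ pb g Y t =ᶠ[𝓝 x] g' := by
  have hc : C3 (fl Y t) x :=
    ⟨(sm_fl' hY t).contDiffAt.of_le (by norm_cast), isUnit_iff_ne_zero.2 hd⟩
  obtain ⟨r, hr, h1⟩ := Metric.eventually_nhds_iff_ball.1 hc.ev
  let χ : ContDiffBump x := ⟨r / 2, r, by positivity, by linarith⟩
  have e : pb g Y t =ᶠ[𝓝 x] fun y i j => pb g Y t y i j + (1 - χ y) * eu n y i j :=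
    χ.eventuallyEq_one.mono fun y hy => by
      funext i j
      simp [hy]
  have hm : ∀ y, mat (pb g Y t) y = (jac (fl Y t) y).conjTranspose * mat g (fl Y t y) *
      jac (fl Y t) y := fun y => P366P.mat_of fun i j => rfl
  refine ⟨_, ⟨hc, hg, ⟨fun i j => ?_, fun y i j => ?_, fun y => ?_⟩,
    e.mono fun y hy i j => (congrFun (congrFun hy i) j).symm⟩, e⟩
  · exact (((fam_pb hg.sm hY).sm i j).comp (contDiff_const.prodMk contDiff_id)).add
      ((contDiff_const.sub χ.contDiff).mul (met_eu.sm i j))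
  · rw [met_eu.sy y i j, pb, pb, Finset.sum_comm]
    congr 1
    exact Finset.sum_congr rfl fun k _ => Finset.sum_congr rfl fun l _ => by
      rw [hg.sy _ l k]; ring
  · have h2 : mat (fun y i j => pb g Y t y i j + (1 - χ y) * eu n y i j) y =
        mat (pb g Y t) y + (1 - χ y) • mat (eu n) y := rfl
    rw [h2, hm]
    by_cases hy : y ∈ ball x r
    · exact ((hg.pos _).conjTranspose_mul_mul_same (Matrix.mulVec_injective_iff_isUnit.2
        ((Matrix.isUnit_iff_isUnit_det _).2 (h1 y hy).det))).add_posSemidef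
          ((met_eu.pos y).posSemidef.smul (sub_nonneg.2 χ.le_one))
    · rw [χ.zero_of_le_dist (not_lt.1 hy), sub_zero, one_smul]
      exact Matrix.PosDef.posSemidef_add
        ((hg.pos _).posSemidef.conjTranspose_mul_mul_same _) (met_eu.pos y)

theorem gd_of (hL : LIN) : GD := by
  intro n g K Y x hg hK hY
  obtain ⟨h1, h2⟩ := hL n _ _ g K _ _ x hg hK (sy_lie ⟨hg.sm, hg.sy⟩ hY) (sy_lie hK hY)
    (fam_pb hg.sm hY) (fam_pb hK.sm hY)
  have hd : ∀ᶠ t in 𝓝 (0 : ℝ), (jac (fl Y t) x).det ≠ 0 := by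
    have h3 : ContinuousAt (fun t => jac (fl Y t) x) 0 :=
      continuousAt_pi.2 fun k => continuousAt_pi.2 fun i => (hd_jac hY x k i).continuousAt
    refine ((continuous_id.matrix_det.continuousAt).comp h3).eventually_ne ?_
    have : jac (fl Y 0) x = 1 := by
      ext k i; simp [jac_fl hY, Matrix.one_apply]
    simp [this]
  have hm : Smooth (mu g K) := ((hg.sm_scal.add ((P366XR.sm_tr hg hK.sm).pow 2)).sub
    (sm_pr hg hK.sm hK.sm)).div_const 2
  refine ⟨h1.unique ((hd_fl hm Y x).congr_of_eventuallyEq (hd.mono fun t ht => ?_)),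
    fun j => (h2 j).unique (((HasDerivAt.fun_sum (u := Finset.univ) fun k _ =>
      (hd_jac hY x k j).fun_mul (hd_fl (sm_mom hg hK.sm k) Y x)).congr_of_eventuallyEq
        (hd.mono fun t ht => ?_)).congr_deriv ?_)⟩
  · obtain ⟨g', c, e⟩ := ex_ctx hg hY ht
    exact (mu_ev e _).trans (c.mu_law fun _ _ => rfl)
  · obtain ⟨g', c, e⟩ := ex_ctx hg hY ht
    exact (mom_ev e _ j).trans (c.mom_law (fun k l => (hK.sm k l).diff _)
      (Eventually.of_forall fun _ _ _ => rfl) j)
  · simp only [jac_fl hY, fl_zero, zero_mul, add_zero, Finset.sum_add_distrib, ite_mul, one_mul,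
      Finset.sum_ite_eq', Finset.mem_univ, if_true, mul_comm (mom g K _ x)]
    ring

theorem gd : GD := gd_of P366K.C.lin

end Vale.Agent.P366RY
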