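import Vale.Agent.P366K.Cv

/-!
# P366RY: the coefficients of the linearised constraints
-/

set_option linter.all false

open Filter Topology
open scoped ContDiff
open Vale.Agent.P366.Stmt
open Vale.Agent.P366Z hiding Wt
open Vale.Agent.P366Y.C (rc Sy)
open Vale.Agent.P366XR (cT Sm sm_tr)
open Vale.Agent.P366K.C

noncomputable section

namespace Vale.Agent.P366RY

variable {n : ℕ} {g K H Q A : Field n} {x : E n} {φ ψ : E n → ℝ}

theorem tr_smul (g H : Field n) (φ : E n → ℝ) (x : E n) :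
    tr g (fun y i j => φ y * H y i j) x = φ x * tr g H x := by
  simp only [tr, Finset.mul_sum, mul_left_comm (φ x)]

theorem momT_smul (g H : Field n) (φ : E n → ℝ) :
    momT g (fun y i j => φ y * H y i j) = fun y i j => φ y * momT g H y i j := by
  funext y i j
  simp only [momT, tr_smul]
  ring

theorem pr_smul (g A H : Field n) (φ : E n → ℝ) (x : E n) :
    pr g A (fun y i j => φ y * H y i j) x = φ x * pr g A H x := by
  simp only [pr, Finset.mul_sum, mul_left_comm (φ x)]

theorem pr_smul' (g A H : Field n) (φ : E n → ℝ) (x : E n) :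
    pr g (fun y i j => φ y * H y i j) A x = φ x * pr g H A x := by
  simp only [pr, Finset.mul_sum]
  exact Finset.sum_congr rfl fun _ _ => Finset.sum_congr rfl fun _ _ =>
    Finset.sum_congr rfl fun _ _ => Finset.sum_congr rfl fun _ _ => by ring

theorem ml_smul (g A H : Field n) (φ : E n → ℝ) (x : E n) (i j : Fin n) :
    ml g (fun y i j => φ y * H y i j) A x i j = φ x * ml g H A x i j := by
  simp only [ml, Finset.mul_sum, mul_assoc]

theorem Wt_smul (g K H Q : Field n) (φ ψ : E n → ℝ) :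
    Wt g K (fun y i j => φ y * H y i j) (fun y i j => ψ y * Q y i j) = fun y i j =>
      φ y * Wt g K H (fun _ _ _ => 0) y i j + ψ y * momT g Q y i j := by
  funext y i j
  have e : momT g (fun _ _ _ => (0 : ℝ)) y i j = 0 := by simp [momT, tr]
  simp only [Wt, momT_smul, pr_smul, ml_smul, tr_smul, e]
  ring

theorem sm_zero : Sm (fun _ _ _ => (0 : ℝ) : Field n) := fun _ _ => contDiff_const

theorem sm_Wt (hg : Met g) (hK : Sm K) (hH : Sm H) (hQ : Sm Q) : Sm (Wt g K H Q) := fun i j =>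
  ((((sm_momT hg hQ i j).add (((sm_pr hg hK hH).sub
    ((sm_pr hg (sm_momT hg hK) hH).div_const 2)).mul (hg.sm i j))).sub
      ((sm_tr hg hK).mul (hH i j))).sub (sm_ml hg hH (sm_momT hg hK) i j)).add
        (((sm_tr hg hH).div_const 2).mul (sm_momT hg hK i j))

theorem sm_rc (hg : Met g) : Sm (rc g) := fun i l =>
  ContDiff.sum fun j _ => (((hg.sm_chr j i l).pd j).sub ((hg.sm_chr j j l).pd i)).add
    (ContDiff.sum fun k _ => ((hg.sm_chr j j k).mul (hg.sm_chr k i l)).sub
      ((hg.sm_chr k j i).mul (hg.sm_chr j k l)))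

theorem sm_Lmu (hg : Met g) (hK : Sm K) (hH : Sm H) (hQ : Sm Q) : Smooth (Lmu g K H Q) :=
  (((((hg.sm_dv (sm_rs hg (sm_mom hg hH))).sub (sm_pr hg (sm_rc hg)
    hH)).div_const 2).sub ((sm_tr hg hK).mul (sm_pr hg hK hH))).add
      (sm_pr hg (sm_ml hg hK hK) hH)).sub (sm_pr hg (sm_momT hg hK) hQ)

theorem sm_Lmo (hg : Met g) (hK : Sm K) (hH : Sm H) (hQ : Sm Q) (j : Fin n) :
    Smooth (Lmo g K H Q j) :=
  (((sm_dvT hg (sm_Wt hg hK hH hQ) j).sub (((sm_tr hg hH).div_const 2).mul (sm_mom hg hK j))).add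
    ((sm_pr hg hH fun a b => sm_cT hg (sm_momT hg hK) j a b).div_const 2)).sub
      ((ContDiff.sum fun a _ => (hH j a).mul (sm_rs hg (sm_mom hg hK) a)).div_const 2)

/-- the tensor `momT g H` with both indices raised -/
def tu (g H : Field n) (a c : Fin n) (x : E n) : ℝ :=
  ∑ i, ∑ j, up g a i x * up g c j x * momT g H x i j

theorem sm_tu (hg : Met g) (hH : Sm H) (a c : Fin n) : Smooth (tu g H a c) :=
  ContDiff.sum fun i _ => ContDiff.sum fun j _ =>
    ((hg.sm_up a i).mul (hg.sm_up c j)).mul (sm_momT hg hH i j)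

theorem dvT_smul' (g : Field n) (hφ : Smooth φ) (hA : Sm A) (j : Fin n) (x : E n) :
    dvT g (fun y i j => φ y * A y i j) j x =
      ∑ a, (∑ i, up g i a x * A x i j) * pd a φ x + φ x * dvT g A j x := by
  rw [dvT_smul g (hφ.diff x) hA, Finset.sum_comm]
  simp only [Finset.sum_mul, mul_comm (pd _ φ x), mul_assoc]

theorem rs_mom (hg : Met g) (hφ : Smooth φ) (hH : Sm H) :
    rs g (mom g fun y i j => φ y * H y i j) = fun c y =>
      ∑ a, pd a φ y * tu g H a c y + φ y * rs g (mom g H) c y := by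
  funext c y
  have e : ∀ j, mom g (fun y i j => φ y * H y i j) j y =
      ∑ a, (∑ i, up g i a y * momT g H y i j) * pd a φ y + φ y * mom g H j y := fun j => by
    have h := dvT_smul' g hφ (sm_momT hg hH) j y
    rw [← momT_smul] at h
    exact h
  simp only [rs, e, tu, mul_add, Finset.sum_add_distrib, Finset.mul_sum, Finset.sum_mul,
    mul_left_comm (φ y)]
  congr 1
  exact p3 (fun (j, a, i) => (a, i, j)) (fun (a, i, j) => (j, a, i)) (fun _ => rfl) (fun _ => rfl)
    fun (j, a, i) => by simp only [hg.up_sy i a]; ring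

theorem dv_rs_mom (hg : Met g) (hφ : Smooth φ) (hH : Sm H) (x : E n) :
    dv g (rs g (mom g fun y i j => φ y * H y i j)) x =
      ∑ a, ∑ c, tu g H a c x * pd a (pd c φ) x +
        ∑ a, (dv g (tu g H a) x + rs g (mom g H) a x) * pd a φ x +
          φ x * dv g (rs g (mom g H)) x := by
  have h1 : ∀ a c, DifferentiableAt ℝ (fun y => pd a φ y * tu g H a c y) x := fun a c =>
    ((hφ.pd a).diff x).fun_mul ((sm_tu hg hH a c).diff x)
  have h2 := fun c => (sm_rs hg (sm_mom hg hH) c).diff x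
  rw [rs_mom hg hφ hH, hg.dv_add (fun c => DifferentiableAt.fun_sum fun a _ => h1 a c)
    fun c => (hφ.diff x).fun_mul (h2 c), hg.dv_smul (hφ.diff x) h2,
    hg.dv_sum Finset.univ (X := fun a c y => pd a φ y * tu g H a c y) h1]
  simp only [fun a => hg.dv_smul ((hφ.pd a).diff x) fun c => (sm_tu hg hH a c).diff x,
    Finset.sum_add_distrib, add_mul, fun a c => pd_comm (hφ.c2 x) a c,
    mul_comm (pd _ φ x), mul_comm (pd _ (pd _ φ) x)]
  have e : ∑ a, ∑ c, tu g H a c x * pd a (pd c φ) x = ∑ a, ∑ c, tu g H a c x * pd c (pd a φ) x :=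
    Finset.sum_congr rfl fun a _ => Finset.sum_congr rfl fun c _ => by rw [pd_comm (hφ.c2 x)]
  linarith

theorem coef : COEF := by
  intro n g K H Q hg hK hH hQ
  refine ⟨fun a x => (dv g (tu g H a) x + rs g (mom g H) a x) / 2,
    Lmo g K H fun _ _ _ => 0, Lmu g K H fun _ _ _ => 0, fun a => ((hg.sm_dv
      (sm_tu hg hH.sm a)).add (sm_rs hg (sm_mom hg hH.sm) a)).div_const 2,
    sm_Lmo hg hK.sm hH.sm sm_zero, sm_Lmu hg hK.sm hH.sm sm_zero, fun φ ψ x hφ hψ => ⟨?_, ?_⟩⟩
  · have e : pr g (momT g K) (fun _ _ _ => (0 : ℝ)) x = 0 := by simp [pr]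
    simp only [Lmu, dv_rs_mom hg hφ hH.sm, pr_smul, e, div_mul_eq_mul_div, ← Finset.sum_div, tu]
    ring
  · intro j
    have hW := sm_Wt hg hK.sm hH.sm sm_zero
    have hM := sm_momT hg hQ.sm
    have e : dvT g (momT g Q) j x = mom g Q j x := rfl
    simp only [Lmo, Lmom, Wt_smul, tr_smul, pr_smul']
    rw [dvT_add g (fun i j => hφ.mul (hW i j)) (fun i j => hψ.mul (hM i j)), dvT_smul' g hφ hW,
      dvT_smul' g hψ hM, e]
    simp only [mul_assoc (φ x), ← Finset.mul_sum]
    ring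

end Vale.Agent.P366RY
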