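import Vale.Agent.P366IV.Defs
import Vale.Agent.P366RY.Id

/-!
# P366RY: the expansion as a function of the 2-jet
-/

set_option linter.all false

open Filter Topology Matrix
open scoped ContDiff RealInnerProductSpace
open Vale.Agent.P366.Stmt
open Vale.Agent.P366Z hiding dd
open Vale.Agent.P366IV

noncomputable section

namespace Vale.Agent.P366RY

variable {n : ℕ} {g K : Field n} {x p : E n} {Q : Op n} {f N : E n → ℝ} {X : Fin n → E n → ℝ}

theorem wn_pos (hg : Met g) (x : E n) (hp : p ≠ 0) : 0 < wn g x p :=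
  Real.sqrt_pos.2 (hg.up_pos x (ξ := fun i => p i) fun h => hp (by
    ext i; exact congrFun h i))

theorem gn_wn (h : ∀ i, pd i f x = p i) : gn g f x = wn g x p := by
  simp only [gn, ip, wn, h]

theorem nrm_nu (h : ∀ i, pd i f x = p i) (i : Fin n) : nrm g f i x = nu g x p i := by
  simp only [nrm, covNorm, nu, wn, h]

theorem th : TH := by
  intro n g K f x p Q hg h1 h2 hp
  have hw := (wn_pos hg x hp).ne'
  have e : covNorm g (fun j => pd j f) x = wn g x p := gn_wn h1
  simp only [thetaPlus, e, trS, tr, nrm_nu h1, hess, h1, h2, Th, Pr, Sg]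
  rw [div_add' _ _ _ hw]
  congr 1
  simp only [← Finset.sum_sub_distrib]
  rw [Finset.sum_mul, ← Finset.sum_add_distrib]
  refine Finset.sum_congr rfl fun i _ => ?_
  rw [Finset.sum_mul, ← Finset.sum_add_distrib]
  exact Finset.sum_congr rfl fun j _ => by ring

theorem hd_co (p η : E n) (i : Fin n) : HasDerivAt (fun t : ℝ => (p + t • η) i) (η i) 0 := by
  simpa using ((hasDerivAt_id (0 : ℝ)).mul_const (η i)).const_add (p i)

theorem hd_wn (hg : Met g) (hp : p ≠ 0) (η : E n) :
    HasDerivAt (fun t : ℝ => wn g x (p + t • η)) (∑ i, nu g x p i * η i) 0 := by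
  have hw := wn_pos hg x hp
  have h1 := HasDerivAt.fun_sum (u := Finset.univ) fun i _ =>
    HasDerivAt.fun_sum (u := Finset.univ) fun j _ =>
      ((hd_co p η i).const_mul (up g i j x)).fun_mul (hd_co p η j)
  have h2 := h1.sqrt (by simpa using (Real.sqrt_pos.1 hw).ne')
  refine h2.congr_deriv ?_
  simp only [zero_smul, add_zero, Finset.sum_add_distrib]
  rw [show √(∑ i, ∑ j, up g i j x * p i * p j) = wn g x p from rfl,
    Finset.sum_comm (f := fun i j => up g i j x * p i * η j), div_eq_iff (by positivity),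
    Finset.sum_mul, ← Finset.sum_add_distrib]
  refine Finset.sum_congr rfl fun i _ => ?_
  rw [nu, ← Finset.sum_add_distrib]
  field_simp
  rw [Finset.mul_sum, Finset.sum_mul]
  exact Finset.sum_congr rfl fun j _ => by rw [hg.up_sy j i]; ring

theorem hd_nu (hg : Met g) (hp : p ≠ 0) (η : E n) (i : Fin n) :
    HasDerivAt (fun t : ℝ => nu g x (p + t • η) i) ((∑ j, Pr g x p i j * η j) / wn g x p) 0 := by
  have hw := (wn_pos hg x hp).ne'
  have h1 := HasDerivAt.fun_sum (u := Finset.univ) fun j _ =>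
    (hd_co p η j).const_mul (up g i j x)
  refine (h1.fun_div (hd_wn hg hp η) (by simpa using hw)).congr_deriv ?_
  have e : ∑ j, up g i j x * p j = wn g x p * nu g x p i := by rw [nu]; field_simp
  simp only [zero_smul, add_zero, e, Pr, sub_mul, Finset.sum_sub_distrib, mul_assoc,
    ← Finset.mul_sum]
  field_simp

/-- the derivative of the expansion in the jet directions -/
def Ln (g K : Field n) (x p : E n) (Q : Op n) (η : E n) (P : Op n) : ℝ :=
  ((∑ i, ∑ j, (-((∑ k, Pr g x p i k * η k) / wn g x p * nu g x p j +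
      nu g x p i * ((∑ k, Pr g x p j k * η k) / wn g x p)) * Sg g K x p Q i j +
    Pr g x p i j * (P (EuclideanSpace.single j 1) i - ∑ k, chr g k i j x * η k +
      (∑ k, nu g x p k * η k) * K x i j))) * wn g x p -
    (∑ i, ∑ j, Pr g x p i j * Sg g K x p Q i j) * ∑ k, nu g x p k * η k) / wn g x p ^ 2

theorem hd_Th (hg : Met g) (hp : p ≠ 0) (η : E n) (P : Op n) :
    HasDerivAt (fun t : ℝ => Th g K x (p + t • η) (Q + t • P)) (Ln g K x p Q η P) 0 := by
  have hw := (wn_pos hg x hp).ne'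
  have h1 : ∀ i j, HasDerivAt (fun t : ℝ => Pr g x (p + t • η) i j)
      (-((∑ k, Pr g x p i k * η k) / wn g x p * nu g x p j +
        nu g x p i * ((∑ k, Pr g x p j k * η k) / wn g x p))) 0 := fun i j =>
    (((hd_nu hg hp η i).fun_mul (hd_nu hg hp η j)).const_sub (up g i j x)).congr_deriv
      (by simp only [zero_smul, add_zero])
  have h2 : ∀ i j, HasDerivAt (fun t : ℝ => Sg g K x (p + t • η) (Q + t • P) i j)
      (P (EuclideanSpace.single j 1) i - ∑ k, chr g k i j x * η k +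
        (∑ k, nu g x p k * η k) * K x i j) 0 := fun i j =>
    ((hd_co (Q (EuclideanSpace.single j 1)) (P (EuclideanSpace.single j 1)) i).fun_sub
      (HasDerivAt.fun_sum (u := Finset.univ) fun k _ =>
        (hd_co p η k).const_mul (chr g k i j x))).fun_add ((hd_wn hg hp η).mul_const (K x i j))
  have h3 := (HasDerivAt.fun_sum (u := Finset.univ) fun i _ =>
    HasDerivAt.fun_sum (u := Finset.univ) fun j _ => (h1 i j).fun_mul (h2 i j)).fun_div
      (hd_wn hg hp η) (by simpa using hw)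
  exact h3.congr_deriv (by simp only [zero_smul ℝ η, zero_smul ℝ P, add_zero, Ln])

theorem cd_wn (hg : Met g) {F : Type} [NormedAddCommGroup F] [NormedSpace ℝ F] {a b : F → E n}
    {q : F} (ha : ContDiffAt ℝ ∞ a q) (hb : ContDiffAt ℝ ∞ b q) (hp : b q ≠ 0) :
    ContDiffAt ℝ ∞ (fun r => wn g (a r) (b r)) q := by
  have h : ∀ i, ContDiffAt ℝ ∞ (fun r => b r i) q := fun i =>
    (contDiff_coord i).contDiffAt.comp q hb
  exact ContDiffAt.sqrt (ContDiffAt.sum fun i _ => ContDiffAt.sum fun j _ =>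
    (((ContDiff.contDiffAt (hg.sm_up i j)).comp q ha).mul (h i)).mul (h j))
      (Real.sqrt_pos.1 (wn_pos hg _ hp)).ne'

theorem cd_Hm (hg : Met g) (hN : ContDiffAt ℝ ∞ N x) (hX : ∀ i, ContDiffAt ℝ ∞ (X i) x)
    (hp : p ≠ 0) : ContDiffAt ℝ ∞ (Hm g N X) (x, p) :=
  ((hN.comp (x, p) contDiffAt_fst).mul (cd_wn hg contDiffAt_fst contDiffAt_snd hp)).sub
    (ContDiffAt.sum fun k _ => ((hX k).comp (x, p) contDiffAt_fst).mul
      ((contDiff_coord k).contDiffAt.comp (x, p) contDiffAt_snd))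

theorem cd_Th (hg : Met g) (hK : ∀ i j, Smooth fun x => K x i j) (hp : p ≠ 0) :
    ContDiffAt ℝ ∞ (fun q : E n × E n × Op n => Th g K q.1 q.2.1 q.2.2) (x, p, Q) := by
  have h1 : ContDiffAt ℝ ∞ (fun q : E n × E n × Op n => q.2.1) (x, p, Q) := by fun_prop
  have hw := cd_wn hg (a := fun q : E n × E n × Op n => q.1) contDiffAt_fst h1 hp
  have h0 := (wn_pos hg x hp).ne'
  have h2 : ∀ i, ContDiffAt ℝ ∞ (fun q : E n × E n × Op n => q.2.1 i) (x, p, Q) := fun i =>
    (contDiff_coord i).contDiffAt.comp (x, p, Q) h1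
  have h3 : ∀ {F : E n → ℝ}, Smooth F →
      ContDiffAt ℝ ∞ (fun q : E n × E n × Op n => F q.1) (x, p, Q) := fun h =>
    (ContDiff.contDiffAt h).comp (x, p, Q) contDiffAt_fst
  have h4 : ∀ i, ContDiffAt ℝ ∞ (fun q : E n × E n × Op n => nu g q.1 q.2.1 i) (x, p, Q) :=
    fun i => (ContDiffAt.sum fun j _ => (h3 (hg.sm_up i j)).mul (h2 j)).div hw h0
  have h5 : ∀ i j, ContDiffAt ℝ ∞
      (fun q : E n × E n × Op n => q.2.2 (EuclideanSpace.single j 1) i) (x, p, Q) := fun i j =>
    (contDiff_coord i).contDiffAt.comp (x, p, Q)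
      ((contDiffAt_snd.snd).clm_apply contDiffAt_const)
  exact (ContDiffAt.sum fun i _ => ContDiffAt.sum fun j _ =>
    ((h3 (hg.sm_up i j)).sub ((h4 i).mul (h4 j))).mul (((h5 i j).sub
      (ContDiffAt.sum fun k _ => (h3 (hg.sm_chr k i j)).mul (h2 k))).add
        (hw.mul (h3 (hK i j))))).div hw h0

theorem fd_Th (hg : Met g) (hK : ∀ i j, Smooth fun x => K x i j) (hp : p ≠ 0) (η : E n)
    (P : Op n) : fderiv ℝ (fun q : E n × E n × Op n => Th g K q.1 q.2.1 q.2.2) (x, p, Q)
      (0, η, P) = Ln g K x p Q η P := by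
  have h1 : HasDerivAt (fun t : ℝ => ((x, p + t • η, Q + t • P) : E n × E n × Op n))
      (0, η, P) 0 := by
    simpa using (hasDerivAt_const (0 : ℝ) x).prodMk
      ((((hasDerivAt_id (0 : ℝ)).smul_const η).const_add p).prodMk
        (((hasDerivAt_id (0 : ℝ)).smul_const P).const_add Q))
  have h2 := ((cd_Th (x := x) (Q := Q) hg hK hp).differentiableAt
    (by simp)).hasFDerivAt.comp_hasDerivAt_of_eq 0 h1
      (by simp only [zero_smul ℝ η, zero_smul ℝ P, add_zero])
  exact h2.unique (hd_Th hg hp η P)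

theorem fd_Hm (hg : Met g) (hN : ContDiffAt ℝ ∞ N x) (hX : ∀ i, ContDiffAt ℝ ∞ (X i) x)
    (hp : p ≠ 0) (a : E n) : fderiv ℝ (Hm g N X) (x, p) (0, a) = ⟪Vv g N X x p, a⟫ := by
  have h1 : HasDerivAt (fun t : ℝ => ((x, p + t • a) : E n × E n)) (0, a) 0 := by
    simpa using (hasDerivAt_const (0 : ℝ) x).prodMk
      (((hasDerivAt_id (0 : ℝ)).smul_const a).const_add p)
  have h2 := ((cd_Hm hg hN hX hp).differentiableAt
    (by simp)).hasFDerivAt.comp_hasDerivAt_of_eq 0 h1 (by simp)
  have h3 := ((hd_wn (x := x) hg hp a).const_mul (N x)).fun_sub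
    (HasDerivAt.fun_sum (u := Finset.univ) fun k _ => (hd_co p a k).const_mul (X k x))
  rw [h2.unique h3, PiLp.inner_apply, Finset.mul_sum, ← Finset.sum_sub_distrib]
  exact Finset.sum_congr rfl fun k _ => by simp [Vv]; ring

/-- the quadratic function with the jet `(p, Q)` at `x` -/
def qf (x p : E n) (Q : Op n) (y : E n) : ℝ := ⟪p, y - x⟫ + ⟪Q (y - x), y - x⟫ / 2

theorem sm_qf (x p : E n) (Q : Op n) : Smooth (qf x p Q) := by
  have h : ContDiff ℝ ∞ fun y : E n => y - x := contDiff_id.sub contDiff_const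
  exact (contDiff_const.inner ℝ h).add (((Q.contDiff.comp h).inner ℝ h).div_const 2)

theorem pd_qf (hQ : P366IV.Sym Q) (i : Fin n) (y : E n) :
    pd i (qf x p Q) y = (p + Q (y - x)) i := by
  have h : HasFDerivAt (fun y : E n => y - x) (ContinuousLinearMap.id ℝ _) y :=
    (hasFDerivAt_id y).sub_const x
  have h2 := ((hasFDerivAt_const p y).inner ℝ h).fun_add
    (((Q.hasFDerivAt.comp y h).inner ℝ h).mul_const (2⁻¹ : ℝ))
  have e : qf x p Q = fun y => ⟪p, y - x⟫ + ⟪Q (y - x), y - x⟫ * 2⁻¹ := by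
    funext y; rw [qf, div_eq_mul_inv]
  rw [e]
  refine (pd_of_hasFDerivAt h2 i).trans ?_
  have h3 := hQ (EuclideanSpace.single i 1) (y - x)
  rw [EuclideanSpace.inner_single_left] at h3
  simp [EuclideanSpace.inner_single_right, h3]
  ring

theorem sym_co (hQ : P366IV.Sym Q) (i j : Fin n) :
    Q (EuclideanSpace.single i 1) j = Q (EuclideanSpace.single j 1) i := by
  have h := hQ (EuclideanSpace.single i 1) (EuclideanSpace.single j 1)
  simpa [EuclideanSpace.inner_single_right, EuclideanSpace.inner_single_left] using h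

theorem hf_L (x p : E n) (Q : Op n) (y : E n) : HasFDerivAt (fun y => p + Q (y - x)) Q y := by
  simpa using (Q.hasFDerivAt.comp y ((hasFDerivAt_id y).sub_const x)).const_add p

theorem pd2_qf (hQ : P366IV.Sym Q) (i j : Fin n) (y : E n) :
    pd i (pd j (qf x p Q)) y = Q (EuclideanSpace.single j 1) i := by
  rw [show pd j (qf x p Q) = fun y => (p + Q (y - x)) j from funext (pd_qf hQ j), ← sym_co hQ]
  exact pd_of_hasFDerivAt
    ((EuclideanSpace.proj (𝕜 := ℝ) j).hasFDerivAt.comp y (hf_L x p Q y)) i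

end Vale.Agent.P366RY
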