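import Vale.Agent.P366RY.Jet

/-!
# P366RY: the inequality of Raychaudhuri for jets along a generator
-/

set_option linter.all false

open Filter Topology Matrix
open scoped ContDiff RealInnerProductSpace
open Vale.Agent.P366.Stmt
open Vale.Agent.P366Z hiding dd
open Vale.Agent.P366IV
open Vale.Agent.P366XR hiding Kid

noncomputable section

namespace Vale.Agent.P366RY

variable {n : ℕ} {g K : Field n} {x p : E n} {Q : Op n} {f N ψ : E n → ℝ} {X : Vf n}

theorem sum_tr {A : Mx n} (hA : Aᵀ = A) (B : Mx n) :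
    ∑ i, ∑ j, A i j * B i j = trace (A * B) := by
  rw [Finset.sum_comm]
  simp only [trace, diag, mul_apply]
  exact Finset.sum_congr rfl fun j _ => Finset.sum_congr rfl fun i _ => by
    rw [← transpose_apply A, hA]

theorem sum_bl (a b : Fin n → ℝ) (B : Mx n) : ∑ i, ∑ j, a i * b j * B i j = a ⬝ᵥ B *ᵥ b := by
  simp only [dotProduct, mulVec, Finset.mul_sum]
  exact Finset.sum_congr rfl fun i _ => Finset.sum_congr rfl fun j _ => by ring

theorem pr_pj (h1 : ∀ i, pd i f x = p i) (i j : Fin n) : Pr g x p i j = Pj g f x i j := by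
  simp only [Pr, ← nrm_nu h1]; rfl

theorem sg_eq (h1 : ∀ i, pd i f x = p i)
    (h2 : ∀ i j, pd i (pd j f) x = Q (EuclideanSpace.single j 1) i) (i j : Fin n) :
    Sg g K x p Q i j = (mat (hess g f) x + gn g f x • mat K x) i j := by
  simp only [Sg, ← h1, ← h2, ← gn_wn h1]; rfl

theorem Ln_eq (hg : Met g) (hs : ∀ i j, K x i j = K x j i) (hp : p ≠ 0)
    (hf : ContDiffAt ℝ 2 f x) (h1 : ∀ i, pd i f x = p i)
    (h2 : ∀ i j, pd i (pd j f) x = Q (EuclideanSpace.single j 1) i) (hψ : ContDiffAt ℝ 2 ψ x)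
    {η : E n} {P : Op n} {M : Mx n} (e1 : ∀ i, η i = -pd i ψ x)
    (e2 : ∀ i j, P (EuclideanSpace.single j 1) i = M i j - pd i (pd j ψ) x) :
    Ln g K x p Q η P = -dv g (Zf g f ψ) x + 2 * ev (Zf g f ψ) x ⬝ᵥ mat K x *ᵥ ev (nrm g f) x +
      trace (Pj g f x * M) / gn g f x := by
  have hw : gn g f x ≠ 0 := by rw [gn_wn h1]; exact (wn_pos hg x hp).ne'
  have hK : (mat K x)ᵀ = mat K x := Matrix.ext fun i j => hs j i
  have a1 : ∀ i, (∑ k, Pr g x p i k * η k) / wn g x p = -ev (Zf g f ψ) x i := fun i => by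
    rw [ev_Zf, ← gn_wn h1, div_eq_inv_mul, Pi.smul_apply, smul_eq_mul, ← mul_neg]
    simp only [pr_pj h1, e1, mul_neg, Finset.sum_neg_distrib]
    rfl
  have a2 : ∑ k, nu g x p k * η k = -(ev (nrm g f) x ⬝ᵥ dd ψ x) := by
    simp only [← nrm_nu h1, e1, mul_neg, Finset.sum_neg_distrib]
    rfl
  have a3 : ∀ i j, P (EuclideanSpace.single j 1) i - ∑ k, chr g k i j x * η k +
      -(ev (nrm g f) x ⬝ᵥ dd ψ x) * K x i j =
        (M - mat (hess g ψ) x - (ev (nrm g f) x ⬝ᵥ dd ψ x) • mat K x) i j := fun i j => by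
    simp only [e1, e2, Matrix.sub_apply, Matrix.smul_apply, smul_eq_mul, mul_neg,
      Finset.sum_neg_distrib]
    simp only [mat, hess]
    ring
  have a4 : ∀ i, nu g x p i = ev (nrm g f) x i := fun i => (nrm_nu h1 i).symm
  have a5 : ∀ a b c d s : ℝ, -(-a * b + c * -d) * s = a * b * s + c * d * s := fun _ _ _ _ _ => by
    ring
  rw [Ln]
  simp only [a1, a2, a3]
  simp only [a4, a5, pr_pj h1, sg_eq h1 h2, Finset.sum_add_distrib, sum_tr (pj_sy hg f x), sum_bl,
    ← gn_wn h1]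
  rw [dv_Zf hg hf hw hψ, Dm_nrm hg hf hw]
  simp only [add_mulVec, smul_mulVec, dotProduct_add, dotProduct_smul, Matrix.mul_add,
    Matrix.mul_sub, Matrix.mul_smul, trace_add, trace_sub, trace_smul, smul_eq_mul,
    dot_sy hK (ev (nrm g f) x) (ev (Zf g f ψ) x),
    dot_sy (hess_sy hg hf) (ev (nrm g f) x) (ev (Zf g f ψ) x)]
  field_simp
  ring

theorem pd2_aff {F : Type} [NormedAddCommGroup F] [NormedSpace ℝ F] {H : F → ℝ} {L : E n → F}
    {B : E n →L[ℝ] F} (hL : ∀ y, HasFDerivAt L B y) (hH : ContDiffAt ℝ 2 H (L x)) (i j : Fin n) :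
    pd i (pd j fun y => H (L y)) x = fderiv ℝ (fderiv ℝ H) (L x)
      (B (EuclideanSpace.single i 1)) (B (EuclideanSpace.single j 1)) := by
  have e : pd j (fun y => H (L y)) =ᶠ[𝓝 x]
      fun y => fderiv ℝ H (L y) (B (EuclideanSpace.single j 1)) := by
    filter_upwards [(hL x).continuousAt.eventually (hH.eventually (by simp))] with y hy
    exact pd_of_hasFDerivAt ((hy.differentiableAt (by norm_num)).hasFDerivAt.comp y (hL y)) j
  have h := ((hH.fderiv_right (m := 1) (by norm_num)).differentiableAt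
    (by norm_num)).hasFDerivAt.comp x (hL x)
  rw [pd_congr e]
  exact pd_of_hasFDerivAt ((ContinuousLinearMap.apply ℝ ℝ
    (B (EuclideanSpace.single j 1))).hasFDerivAt.comp x h) i

theorem mt_eq (hg : Met g) (K : Field n) (N : E n → ℝ) (X : Vf n) : mt g K N X = EE g K N X := by
  funext x i j
  have e1 : ∑ k, X k x * ∑ l, chr g l k i x * K x l j =
      ∑ k, K x k j * ∑ l, chr g k i l x * X l x := by
    simp only [Finset.mul_sum]
    rw [Finset.sum_comm]
    exact Finset.sum_congr rfl fun k _ => Finset.sum_congr rfl fun l _ => by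
      rw [hg.chr_sy k l i]; ring
  have e2 : ∑ k, X k x * ∑ l, chr g l k j x * K x i l =
      ∑ k, K x i k * ∑ l, chr g k j l x * X l x := by
    simp only [Finset.mul_sum]
    rw [Finset.sum_comm]
    exact Finset.sum_congr rfl fun k _ => Finset.sum_congr rfl fun l _ => by
      rw [hg.chr_sy k l j]; ring
  simp only [P366IV.mt, EE, cT, P366P.cd, mul_add, mul_sub, Finset.sum_add_distrib,
    Finset.sum_sub_distrib, e1, e2]
  ring

theorem ph_qf (hQ : P366IV.Sym Q) :
    ph g N X (qf x p Q) = fun y => Hm g N X (y, p + Q (y - x)) := by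
  funext y
  rw [ph, gn_wn fun i => pd_qf hQ i y, Hm, D]
  simp only [dotProduct, ev, dd, pd_qf hQ]

theorem ray : RAY := by
  intro n g K N X ε s I c ξ Q hg hK hs hk hp hε hc hJ
  obtain ⟨ξ', hξ, e1⟩ := hJ.dξ
  obtain ⟨Q', hQ, e2⟩ := hJ.dQ
  have hS := hJ.sym
  have hT := ((cd_Th (x := c s) (Q := Q s) hg hK hp).differentiableAt (by simp)).hasFDerivAt
  have hD := HasFDerivAt.comp_hasDerivWithinAt (f := fun r => (c r, ξ r, Q r)) s hT
    (hc.prodMk (hξ.prodMk hQ))
  refine ⟨_, hD, ?_⟩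
  clear hD hc hξ hQ hJ
  generalize c s = x at *
  generalize ξ s = p at *
  generalize Q s = Q₀ at *
  have hN := hk.sN.self_of_nhds
  have hX := fun i => (hk.sX i).self_of_nhds
  have hN2 : ContDiffAt ℝ 2 N x := hN.of_le (by norm_cast)
  have hX2 : C2 X x := fun i => (hX i).of_le (by norm_cast)
  have hf := sm_qf x p Q₀
  have hf3 : ContDiffAt ℝ 3 (qf x p Q₀) x := (ContDiff.contDiffAt hf).of_le (by norm_cast)
  have x0 : p + Q₀ (x - x) = p := by simp
  have h1 : ∀ i, pd i (qf x p Q₀) x = p i := fun i => by rw [pd_qf hS, x0]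
  have h2 := fun i j => pd2_qf (x := x) (p := p) hS i j x
  have w0 := wn_pos hg x hp
  have hw : gn g (qf x p Q₀) x ≠ 0 := by rw [gn_wn h1]; exact w0.ne'
  have hH : ContDiffAt ℝ 2 (Hm g N X) (x, p + Q₀ (x - x)) := by
    rw [x0]; exact (cd_Hm hg hN hX hp).of_le (by norm_cast)
  have hL : ∀ y, HasFDerivAt (fun y => ((y, p + Q₀ (y - x)) : E n × E n))
      ((ContinuousLinearMap.id ℝ (E n)).prod Q₀) y := fun y =>
    (hasFDerivAt_id y).prodMk (hf_L x p Q₀ y)
  have hφ : ContDiffAt ℝ 2 (ph g N X (qf x p Q₀)) x := by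
    rw [ph_qf hS]
    exact hH.comp x (contDiffAt_id.prodMk (contDiffAt_const.add
      (Q₀.contDiff.contDiffAt.comp x (contDiffAt_id.sub contDiffAt_const))))
  have b1 : ∀ i, (ξ' - Q₀ (Vv g N X x p)) i = -pd i (ph g N X (qf x p Q₀)) x := fun i => by
    have h := pd_of_hasFDerivAt
      ((hH.differentiableAt (by norm_num)).hasFDerivAt.comp x (hL x)) i
    have h' : pd i (fun y => Hm g N X (y, p + Q₀ (y - x))) x = fderiv ℝ (Hm g N X)
      (x, p + Q₀ (x - x)) (EuclideanSpace.single i 1, Q₀ (EuclideanSpace.single i 1)) := h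
    have h3 := e1 (EuclideanSpace.single i 1)
    have h4 : ∀ a b : E n, (a, b) = ((a, 0) : E n × E n) + (0, b) := fun a b => by simp
    rw [ph_qf hS, h', x0, h4 _ (Q₀ _), map_add, fd_Hm hg hN hX hp, ← hS, neg_add, ← h3]
    simp [EuclideanSpace.inner_single_right, sub_eq_add_neg]
  have sy : (mat (hess g (qf x p Q₀)) x + gn g (qf x p Q₀) x • mat K x)ᵀ =
      mat (hess g (qf x p Q₀)) x + gn g (qf x p Q₀) x • mat K x := by
    rw [transpose_add, transpose_smul, hess_sy hg (hf.c2 x),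
      show (mat K x)ᵀ = mat K x from Matrix.ext fun i j => hs x j i]
  have a0 := sg_eq (g := g) (K := K) h1 h2
  have a1 : Dm g (nrm g (qf x p Q₀)) x + Pj g (qf x p Q₀) x * mat K x = (gn g (qf x p Q₀) x)⁻¹ •
      (Pj g (qf x p Q₀) x * (mat (hess g (qf x p Q₀)) x + gn g (qf x p Q₀) x • mat K x)) := by
    rw [Dm_nrm hg (hf.c2 x) hw, Matrix.mul_add, smul_add, Matrix.mul_smul, smul_smul,
      inv_mul_cancel₀ hw, one_smul]
  generalize mat (hess g (qf x p Q₀)) x + gn g (qf x p Q₀) x • mat K x = S at sy a0 a1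
  have b2 : ∀ i j, Q' (EuclideanSpace.single j 1) i = (ε • (1 : Mx n) + (N x / wn g x p) •
      (S * (Pj g (qf x p Q₀) x * S))) i j - pd i (pd j (ph g N X (qf x p Q₀))) x := fun i j => by
    have h := e2 (EuclideanSpace.single j 1) (EuclideanSpace.single i 1)
    rw [pd_comm hφ, ph_qf hS, pd2_aff hL hH, x0]
    simp only [EuclideanSpace.inner_single_right, conj_trivial, one_mul, PiLp.single_apply,
      ite_mul, zero_mul, Finset.sum_ite_eq', Finset.mem_univ, if_true, a0, pr_pj h1] at h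
    rw [h]
    simp only [Matrix.add_apply, Matrix.smul_apply, smul_eq_mul, one_apply, mul_apply,
      Finset.mul_sum]
    congr 2
    rw [Finset.sum_comm]
    refine Finset.sum_congr rfl fun k _ => Finset.sum_congr rfl fun l _ => ?_
    rw [← transpose_apply S l j, sy, ← transpose_apply (Pj g _ x) k l, pj_sy hg]
    ring
  have b3 : fderiv ℝ (fun q : E n × E n × Op n => Th g K q.1 q.2.1 q.2.2) (x, p, Q₀)
      (Vv g N X x p, Q₀ (Vv g N X x p), 0) =
      D (el g N X (qf x p Q₀)) (thetaPlus g K (qf x p Q₀)) x := by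
    have hT' := hT
    rw [show (x, p, Q₀) = (x, p + Q₀ (x - x), Q₀) by rw [x0]] at hT' ⊢
    have h3 := HasFDerivAt.comp (f := fun y => (y, p + Q₀ (y - x), Q₀)) x hT'
      ((hasFDerivAt_id x).prodMk ((hf_L x p Q₀ x).prodMk (hasFDerivAt_const Q₀ x)))
    have h4 : thetaPlus g K (qf x p Q₀) =ᶠ[𝓝 x] fun y => Th g K y (p + Q₀ (y - x)) Q₀ := by
      filter_upwards [(hf_L x p Q₀ x).continuousAt.eventually_ne (y := 0) (by rwa [x0])] with y hy
      exact th n g K _ y _ Q₀ hg (fun i => pd_qf hS i y) (fun i j => pd2_qf hS i j y) hy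
    have h5 := h3.congr_of_eventuallyEq h4
    have h6 := fderiv_eq_sum h5.differentiableAt (Vv g N X x p)
    rw [h5.fderiv] at h6
    refine Eq.trans h6 (Finset.sum_congr rfl fun i _ => ?_)
    simp only [ev, el, dd, Vv, nrm_nu h1]
  have b4 : (Vv g N X x p, ξ', Q') = ((Vv g N X x p, Q₀ (Vv g N X x p), 0) : E n × E n × Op n) +
      (0, ξ' - Q₀ (Vv g N X x p), Q') := by simp
  have b5 := ident hg hK (hs x) hN2 hX2 hf3 hw hk.kx
  have b6 : 0 ≤ Nc g K N X (qf x p Q₀) x := by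
    have h := hk.nec (ev (nrm g (qf x p Q₀)) x) (by
      rw [← nrm_unit hg hw, ← sum_bl]
      exact Finset.sum_congr rfl fun i _ => Finset.sum_congr rfl fun j _ => by
        simp only [mat]; ring)
    rw [mt_eq hg] at h
    exact h
  have b7 : sig g K N (qf x p Q₀) x = bt g K N x p := by
    rw [sig, bt, bl, ← sum_bl]
    simp only [D, dotProduct, ev, dd, nrm_nu h1, mat, mul_comm _ (K x _ _), mul_assoc]
  have b8 : trace (Pj g (qf x p Q₀) x) ≤ ∑ i, up g i i x :=
    Finset.sum_le_sum fun i _ => sub_le_self _ (mul_self_nonneg _)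
  rw [b4, map_add, b3, fd_Th hg hK hp, Ln_eq hg (hs x) hp (hf.c2 x) h1 h2 hφ b1 b2, ← b7,
    ← th n g K _ x p Q₀ hg h1 h2 hp]
  rw [a1] at b5
  simp only [Matrix.mul_add, Matrix.mul_smul, Matrix.smul_mul, Matrix.mul_one, trace_add,
    trace_smul, smul_eq_mul, Matrix.mul_assoc, gn_wn h1] at b5 ⊢
  have b9 := div_le_div_of_nonneg_right (mul_le_mul_of_nonneg_left b8 hε) w0.le
  have b10 : ∀ a t : ℝ, (a + N x / wn g x p * t) / wn g x p =
      a / wn g x p + N x * ((wn g x p)⁻¹ * ((wn g x p)⁻¹ * t)) := fun a t => by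
    field_simp
  rw [b10]
  linarith

end Vale.Agent.P366RY
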