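import Mathlib.LinearAlgebra.Matrix.Trace
import Mathlib.Data.Real.Basic
import Mathlib.Tactic.LinearCombination
import Mathlib.Tactic.FieldSimp

/-!
# P366RY: the algebra of the identity of Raychaudhuri
-/

set_option linter.all false

open Matrix

namespace Vale.Agent.P366RY

variable {ι : Type} [Fintype ι] [DecidableEq ι] {G U H K C HN R P Q A M : Matrix ι ι ℝ}
  {v z dN dT X : ι → ℝ} {N σ τ : ℝ}

theorem dot_sy (hM : Mᵀ = M) (a b : ι → ℝ) : a ⬝ᵥ M *ᵥ b = b ⬝ᵥ M *ᵥ a := by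
  rw [dotProduct_mulVec, ← mulVec_transpose, hM, dotProduct_comm]

theorem mv_dot (hM : Mᵀ = M) (a b : ι → ℝ) : (M *ᵥ a) ⬝ᵥ b = (M *ᵥ b) ⬝ᵥ a := by
  rw [dotProduct_comm, dot_sy hM, dotProduct_comm]

theorem tr_vv (a b : ι → ℝ) (M : Matrix ι ι ℝ) : trace (vecMulVec a b * M) = b ⬝ᵥ M *ᵥ a := by
  rw [vecMulVec_mul, trace_vecMulVec, dotProduct_comm, dotProduct_mulVec]

theorem vv_mv (a b c : ι → ℝ) : vecMulVec a b *ᵥ c = (b ⬝ᵥ c) • a := by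
  ext i
  simp [mulVec, dotProduct, vecMulVec_apply, Finset.mul_sum, mul_comm, mul_left_comm]

theorem kid_tr (hG : Gᵀ = G) (h1 : U * G = 1) (h2 : G * U = 1)
    (hk : G * C + (G * C)ᵀ = (-2 * N) • K) (M : Matrix ι ι ℝ) :
    trace (U * (Cᵀ * M)) + trace (U * (M * C)) = -2 * N * trace (U * (M * (U * K))) := by
  have e : U * Cᵀ + C * U = (-2 * N) • (U * K * U) := by
    have h := congrArg (fun B => U * B * U) hk
    simp only [transpose_mul, hG, Matrix.mul_add, Matrix.add_mul, Matrix.mul_smul,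
      Matrix.smul_mul] at h
    rw [← Matrix.mul_assoc U G, h1, Matrix.one_mul, Matrix.mul_assoc U, Matrix.mul_assoc Cᵀ, h2,
      Matrix.mul_one] at h
    rw [← h, add_comm]
  have h := congrArg (fun B => trace (B * M)) e
  simp only [Matrix.add_mul, trace_add, Matrix.smul_mul, trace_smul, smul_eq_mul] at h
  rw [Matrix.mul_assoc U, Matrix.mul_assoc C, trace_mul_comm C, Matrix.mul_assoc U M] at h
  rw [h, Matrix.mul_assoc (U * K), trace_mul_comm (U * K), Matrix.mul_assoc U M]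

theorem kid_tr1 (hG : Gᵀ = G) (h1 : U * G = 1) (h2 : G * U = 1)
    (hk : G * C + (G * C)ᵀ = (-2 * N) • K) : trace C = -N * trace (U * K) := by
  have h := congrArg (fun B => trace (U * B)) hk
  simp only [transpose_mul, hG, Matrix.mul_add, trace_add, Matrix.mul_smul, trace_smul,
    smul_eq_mul] at h
  rw [← Matrix.mul_assoc U G, h1, Matrix.one_mul, trace_mul_comm U, Matrix.mul_assoc Cᵀ, h2,
    Matrix.mul_one, trace_transpose] at h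
  linear_combination h / 2

/-- the tangential part of the differential of the Hamiltonian -/
theorem kid_vec (h1 : U * G = 1) (hk : G * C + (G * C)ᵀ = (-2 * N) • K) (hG : Gᵀ = G)
    (hσ : σ = v ⬝ᵥ dN + N * v ⬝ᵥ K *ᵥ v) :
    (U - vecMulVec v v) *ᵥ (dN - (G *ᵥ v) ᵥ* C) =
      U *ᵥ dN + (2 * N) • U *ᵥ K *ᵥ v + C *ᵥ v - σ • v := by
  have e : (G *ᵥ v) ᵥ* C = (-2 * N) • K *ᵥ v - G *ᵥ C *ᵥ v := by
    rw [← smul_mulVec, ← hk, add_mulVec, mulVec_mulVec, add_sub_cancel_left, transpose_mul, hG,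
      ← mulVec_mulVec, mulVec_transpose]
  have e2 : v ⬝ᵥ G *ᵥ C *ᵥ v = -N * v ⬝ᵥ K *ᵥ v := by
    have h := congrArg (fun B => v ⬝ᵥ B *ᵥ v) hk
    simp only [add_mulVec, dotProduct_add, smul_mulVec, dotProduct_smul, smul_eq_mul,
      mulVec_transpose] at h
    rw [dotProduct_comm v (v ᵥ* (G * C)), ← dotProduct_mulVec, ← mulVec_mulVec] at h
    linear_combination h / 2
  have e3 : U *ᵥ G *ᵥ C *ᵥ v = C *ᵥ v := by rw [mulVec_mulVec, h1, one_mulVec]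
  rw [e, sub_mulVec, vv_mv, hσ]
  simp only [mulVec_sub, mulVec_smul, dotProduct_sub, dotProduct_smul, smul_eq_mul, e2, e3]
  ext i
  simp only [Pi.sub_apply, Pi.add_apply, Pi.smul_apply, smul_eq_mul]
  ring

theorem sq_tr (hU : Uᵀ = U) (hK : Kᵀ = K) :
    trace ((A + (U - vecMulVec v v) * K) * (A + (U - vecMulVec v v) * K)) =
      trace (A * A) + 2 * (trace (U * (K * A)) - v ⬝ᵥ K *ᵥ A *ᵥ v) +
        (trace (U * (K * (U * K))) - 2 * (K *ᵥ v) ⬝ᵥ U *ᵥ K *ᵥ v + (v ⬝ᵥ K *ᵥ v) ^ 2) := by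
  have e1 : trace (A * (U * K)) = trace (U * (K * A)) := by
    rw [trace_mul_comm, Matrix.mul_assoc]
  have e2 : trace (A * (vecMulVec v v * K)) = v ⬝ᵥ K *ᵥ A *ᵥ v := by
    rw [trace_mul_comm, Matrix.mul_assoc, tr_vv, mulVec_mulVec]
  have e3 : trace (vecMulVec v v * (K * (U * K))) = (K *ᵥ v) ⬝ᵥ U *ᵥ K *ᵥ v := by
    rw [tr_vv, ← mulVec_mulVec, ← mulVec_mulVec, dot_sy hK, dotProduct_comm]
  have e4 : trace (U * (K * (vecMulVec v v * K))) = (K *ᵥ v) ⬝ᵥ U *ᵥ K *ᵥ v := by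
    rw [← Matrix.mul_assoc, trace_mul_comm, Matrix.mul_assoc, e3]
  have e5 : trace (vecMulVec v v * (K * (vecMulVec v v * K))) = (v ⬝ᵥ K *ᵥ v) ^ 2 := by
    rw [tr_vv, ← mulVec_mulVec, ← mulVec_mulVec, vv_mv, mulVec_smul, dotProduct_smul, sq,
      smul_eq_mul]
  simp only [Matrix.add_mul, Matrix.mul_add, Matrix.sub_mul, Matrix.mul_sub, trace_add, trace_sub,
    Matrix.mul_assoc, e1, e2, e3, e4, e5, tr_vv v v (K * A), ← mulVec_mulVec]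
  ring

/-- the algebra of the identity -/
theorem alg (hG : Gᵀ = G) (hU : Uᵀ = U) (h1 : U * G = 1) (h2 : G * U = 1) (hK : Kᵀ = K)
    (hR : Rᵀ = R) (hk : G * C + (G * C)ᵀ = (-2 * N) • K)
    (hσ : σ = v ⬝ᵥ dN + N * v ⬝ᵥ K *ᵥ v) (hτ : τ = trace (U * K)) (hz : z = N • v - X) :
    trace (U * (N • P - Q)) - (v ⬝ᵥ (N • P - Q) *ᵥ v + (A *ᵥ z) ⬝ᵥ K *ᵥ v + v ⬝ᵥ K *ᵥ A *ᵥ z) -
      (trace ((N • A + vecMulVec v dN - C) * A) + z ⬝ᵥ R *ᵥ v + trace (U * HN) +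
        (2 * N * (dT ⬝ᵥ v + trace (U * (K * A))) + 2 * (U *ᵥ K *ᵥ v) ⬝ᵥ dN) +
        (trace (A * C) + v ⬝ᵥ R *ᵥ X - (v ⬝ᵥ dN * τ + N * trace (U * P))) -
        (σ * trace A + (v ⬝ᵥ (HN *ᵥ v + dN ᵥ* A) + (v ⬝ᵥ dN * v ⬝ᵥ K *ᵥ v +
          N * (v ⬝ᵥ P *ᵥ v + (A *ᵥ v) ⬝ᵥ K *ᵥ v + v ⬝ᵥ K *ᵥ A *ᵥ v))))) +
      2 * (A *ᵥ z + (U *ᵥ dN + (2 * N) • U *ᵥ K *ᵥ v + C *ᵥ v - σ • v)) ⬝ᵥ K *ᵥ v =
    σ * (trace A + τ - v ⬝ᵥ K *ᵥ v) -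
      N * trace ((A + (U - vecMulVec v v) * K) * (A + (U - vecMulVec v v) * K)) -
      (N * (trace (U * R) + τ ^ 2 - trace (U * (K * (U * K)))) + 2 * N * (dT ⬝ᵥ v - trace (U * P)) +
        trace ((U - vecMulVec v v) *
          (HN + (Q + Cᵀ * K + K * C) - N • (R + τ • K - (2 : ℝ) • (K * (U * K)))))) := by
  have e1 := kid_tr hG h1 h2 hk K
  have e2 : ∀ a, v ⬝ᵥ K *ᵥ a = a ⬝ᵥ K *ᵥ v := dot_sy hK v
  have e3 : v ⬝ᵥ Cᵀ *ᵥ K *ᵥ v = (C *ᵥ v) ⬝ᵥ K *ᵥ v := by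
    rw [mulVec_transpose, dotProduct_comm, ← dotProduct_mulVec, dotProduct_comm]
  have e4 : z ⬝ᵥ R *ᵥ v = N * v ⬝ᵥ R *ᵥ v - v ⬝ᵥ R *ᵥ X := by
    rw [hz, sub_dotProduct, smul_dotProduct, smul_eq_mul, dot_sy hR X]
  have e5 : (U *ᵥ K *ᵥ v) ⬝ᵥ dN = (U *ᵥ dN) ⬝ᵥ K *ᵥ v := mv_dot hU _ _
  have e6 : v ⬝ᵥ dN ᵥ* A = dN ⬝ᵥ A *ᵥ v := by rw [dotProduct_comm, dotProduct_mulVec]
  have e7 : (K *ᵥ v) ⬝ᵥ U *ᵥ K *ᵥ v = (U *ᵥ K *ᵥ v) ⬝ᵥ K *ᵥ v := dotProduct_comm _ _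
  rw [sq_tr hU hK, e2 (A *ᵥ z), e2 (A *ᵥ v), e4, e5, e7]
  simp only [Matrix.add_mul, Matrix.mul_add, Matrix.sub_mul, Matrix.mul_sub, trace_add, trace_sub,
    Matrix.mul_smul, Matrix.smul_mul, trace_smul, smul_eq_mul, tr_vv, add_mulVec, sub_mulVec,
    smul_mulVec, dotProduct_add, dotProduct_sub, dotProduct_smul, add_dotProduct, sub_dotProduct,
    smul_dotProduct, ← mulVec_mulVec, e3, e6, e2 (C *ᵥ v), e2 (U *ᵥ K *ᵥ v), trace_mul_comm C A,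
    ← hτ]
  rw [hσ]
  linear_combination e1

end Vale.Agent.P366RY
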