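import Vale.Agent.P366XR.Cov
import Vale.Agent.P366RY.Alg

/-!
# P366RY: the unit normal of the level sets and the variation of the expansion
-/

set_option linter.all false

open Filter Topology Matrix
open scoped ContDiff
open Vale.Agent.P366.Stmt Vale.Agent.P366XR
open Vale.Agent.P366Z hiding dd
open Vale.Agent.P366Y.C (rc)

noncomputable section

namespace Vale.Agent.P366RY

variable {n : ℕ} {g K T : Field n} {x : E n} {u N f : E n → ℝ} {X : Vf n}

/-- the projection to the level set -/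
def Pj (g : Field n) (u : E n → ℝ) (x : E n) : Mx n :=
  (mat g x)⁻¹ - vecMulVec (ev (nrm g u) x) (ev (nrm g u) x)

theorem nrm_eq (g : Field n) (u : E n → ℝ) :
    nrm g u = fun i y => (gn g u y)⁻¹ * gr g u i y := by
  funext i y
  exact div_eq_inv_mul _ _

theorem ev_gr (g : Field n) (u : E n → ℝ) (x : E n) :
    ev (gr g u) x = (mat g x)⁻¹ *ᵥ dd u x := rfl

theorem ev_nrm (g : Field n) (u : E n → ℝ) (x : E n) :
    ev (nrm g u) x = (gn g u x)⁻¹ • (mat g x)⁻¹ *ᵥ dd u x := by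
  rw [nrm_eq]; rfl

theorem gr_nrm (hw : gn g u x ≠ 0) : ev (gr g u) x = gn g u x • ev (nrm g u) x := by
  rw [ev_nrm, smul_smul, mul_inv_cancel₀ hw, one_smul, ev_gr]

theorem dd_eq (hg : Met g) (hw : gn g u x ≠ 0) :
    dd u x = gn g u x • mat g x *ᵥ ev (nrm g u) x := by
  rw [← mulVec_smul, ← gr_nrm hw, ev_gr, mulVec_mulVec, P366XR.mul_inv hg, one_mulVec]

theorem nrm_dd (hg : Met g) (hw : gn g u x ≠ 0) : ev (nrm g u) x ⬝ᵥ dd u x = gn g u x := by
  have h : dd u x ⬝ᵥ ev (gr g u) x = gn g u x ^ 2 := by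
    rw [hg.gn_sq, ip_eq_gr]; rfl
  rw [gr_nrm hw, dotProduct_smul, smul_eq_mul, sq] at h
  rw [dotProduct_comm]
  exact mul_left_cancel₀ hw h

theorem nrm_unit (hg : Met g) (hw : gn g u x ≠ 0) :
    ev (nrm g u) x ⬝ᵥ mat g x *ᵥ ev (nrm g u) x = 1 := by
  have h := nrm_dd hg hw
  rw [dd_eq hg hw, dotProduct_smul, smul_eq_mul] at h
  exact mul_left_cancel₀ hw (h.trans (mul_one _).symm)

theorem cd_gn (hg : Met g) {m k : WithTop ℕ∞} (hu : ContDiffAt ℝ m u x) (hk : k + 1 ≤ m)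
    (hk' : k ≤ ((⊤ : ℕ∞) : WithTop ℕ∞)) (hw : gn g u x ≠ 0) : ContDiffAt ℝ k (gn g u) x := by
  refine ContDiffAt.sqrt (f := ip g u u) (ContDiffAt.sum fun i _ => ContDiffAt.sum fun j _ =>
    (((ContDiff.contDiffAt (hg.sm_up i j)).of_le hk').mul (contDiffAt_pd hu hk i)).mul
      (contDiffAt_pd hu hk j)) fun h => hw ?_
  rw [gn, h, Real.sqrt_zero]

theorem df_gn (hg : Met g) (hu : ContDiffAt ℝ 2 u x) (hw : gn g u x ≠ 0) :
    DifferentiableAt ℝ (gn g u) x :=
  (cd_gn hg (k := 1) hu (by norm_num) (by norm_cast) hw).differentiableAt (by norm_num)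

theorem df_nrm (hg : Met g) (hu : ContDiffAt ℝ 2 u x) (hw : gn g u x ≠ 0) : Df (nrm g u) x := by
  rw [nrm_eq]
  exact fun i => ((df_gn hg hu hw).fun_inv hw).fun_mul (hg.diff_gr hu i)

theorem c2_nrm (hg : Met g) (hu : ContDiffAt ℝ 3 u x) (hw : gn g u x ≠ 0) : C2 (nrm g u) x := by
  rw [nrm_eq]
  exact fun i => ((cd_gn hg (k := 2) hu (by norm_num) (by norm_cast) hw).inv hw).mul
    (hg.contDiffAt_gr (k := 2) hu (by norm_num) (by norm_cast) i)

theorem hess_sy (hg : Met g) (hu : ContDiffAt ℝ 2 u x) :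
    (mat (hess g u) x)ᵀ = mat (hess g u) x := Matrix.ext fun i j => hg.hess_sy hu j i

theorem dd_gn (hg : Met g) (hu : ContDiffAt ℝ 2 u x) (hw : gn g u x ≠ 0) :
    dd (gn g u) x = mat (hess g u) x *ᵥ ev (nrm g u) x := by
  ext k
  have h1 := pd_pow (df_gn hg hu hw) 2 k
  rw [show (fun y => gn g u y ^ 2) = ip g u u from funext (hg.gn_sq u), hg.pd_ip hu hu] at h1
  have h2 : ∑ i, hess g u x k i * gr g u i x = (mat (hess g u) x *ᵥ ev (gr g u) x) k := rfl
  rw [h2, gr_nrm hw, mulVec_smul, Pi.smul_apply, smul_eq_mul] at h1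
  refine mul_left_cancel₀ hw ?_
  have h3 : dd (gn g u) x k = pd k (gn g u) x := rfl
  rw [h3]
  norm_num at h1
  linarith

theorem dd_inv (hf : DifferentiableAt ℝ f x) (h0 : f x ≠ 0) :
    dd (fun y => (f y)⁻¹) x = (-((f x)⁻¹ * (f x)⁻¹)) • dd f x := by
  ext k
  simp only [dd, pd_inv hf h0, Pi.smul_apply, smul_eq_mul]
  field_simp

theorem Dm_nrm (hg : Met g) (hu : ContDiffAt ℝ 2 u x) (hw : gn g u x ≠ 0) :
    Dm g (nrm g u) x = (gn g u x)⁻¹ • (Pj g u x * mat (hess g u) x) := by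
  have h := Dm_smul g ((df_gn hg hu hw).fun_inv hw) (Y := gr g u) (hg.diff_gr hu)
  rw [← nrm_eq, Dm_gr hg hu, dd_inv (df_gn hg hu hw) hw, dd_gn hg hu hw, gr_nrm hw,
    smul_vecMulVec, vecMulVec_smul, smul_smul] at h
  rw [h, Pj, Matrix.sub_mul, vecMulVec_mul, ← mulVec_transpose, hess_sy hg hu, smul_sub,
    sub_eq_add_neg, ← neg_smul]
  congr 2
  field_simp

theorem trS_eq (hg : Met g) (T : Field n) (u : E n → ℝ) (x : E n) :
    trS g T u x = trace (Pj g u x * mat T x) := by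
  rw [trS, tr_eq hg, Pj, Matrix.sub_mul, trace_sub, tr_vv]
  congr 1
  simp only [dotProduct, mulVec, Finset.mul_sum]
  exact Finset.sum_congr rfl fun i _ => Finset.sum_congr rfl fun j _ => by
    simp only [mat, ev]; ring

theorem trS_bl (hg : Met g) (T : Field n) (u : E n → ℝ) (x : E n) :
    trS g T u x = tr g T x - bl T (nrm g u) (nrm g u) x := by
  rw [trS_eq hg, tr_eq hg, Pj, Matrix.sub_mul, trace_sub, tr_vv, bl]

theorem theta_eq (hg : Met g) (hu : ContDiffAt ℝ 2 u x) (hw : gn g u x ≠ 0) :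
    thetaPlus g K u x = dv g (nrm g u) x + (tr g K x - bl K (nrm g u) (nrm g u) x) := by
  rw [thetaPlus, ← gn_eq_covNorm, trS_eq hg, trS_bl hg, dv_eq hg (df_nrm hg hu hw),
    Dm_nrm hg hu hw, trace_smul, smul_eq_mul, div_eq_inv_mul]

/-- the variation of the unit normal in the direction `f` -/
def Zf (g : Field n) (u f : E n → ℝ) : Vf n := fun i y =>
  (gn g u y)⁻¹ * (gr g f i y - D (nrm g u) f y * nrm g u i y)

theorem pj_mv (g : Field n) (u f : E n → ℝ) (x : E n) :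
    ev (fun i y => gr g f i y - D (nrm g u) f y * nrm g u i y) x = Pj g u x *ᵥ dd f x := by
  rw [Pj, sub_mulVec, vv_mv]; rfl

theorem ev_Zf (g : Field n) (u f : E n → ℝ) (x : E n) :
    ev (Zf g u f) x = (gn g u x)⁻¹ • Pj g u x *ᵥ dd f x := by
  rw [← pj_mv]; rfl

theorem pj_sy (hg : Met g) (u : E n → ℝ) (x : E n) : (Pj g u x)ᵀ = Pj g u x := by
  rw [Pj, transpose_sub, inv_sy hg, transpose_vecMulVec]

theorem dv_Zf (hg : Met g) (hu : ContDiffAt ℝ 2 u x) (hw : gn g u x ≠ 0)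
    (hf : ContDiffAt ℝ 2 f x) : dv g (Zf g u f) x =
      (gn g u x)⁻¹ * (trace (Pj g u x * mat (hess g f) x) -
        ev (nrm g u) x ⬝ᵥ dd f x * trace (Dm g (nrm g u) x) -
        2 * ev (Zf g u f) x ⬝ᵥ mat (hess g u) x *ᵥ ev (nrm g u) x) := by
  have h1 := df_nrm hg hu hw
  have h2 : DifferentiableAt ℝ (D (nrm g u) f) x := df_D h1 hf
  have h3 : Df (fun i y => D (nrm g u) f y * nrm g u i y) x := fun i => h2.fun_mul (h1 i)
  have h4 : Df (fun i y => gr g f i y - D (nrm g u) f y * nrm g u i y) x := fun i =>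
    (hg.diff_gr hf i).fun_sub (h3 i)
  have h5 := (df_gn hg hu hw).fun_inv hw
  have h6 : Df (Zf g u f) x := fun i => h5.fun_mul (h4 i)
  have h7 : Dm g (Zf g u f) x = _ := Dm_smul g h5 h4
  rw [dv_eq hg h6, h7, Dm_sub g (Y := gr g f) (hg.diff_gr hf) h3, Dm_smul g h2 h1, Dm_gr hg hf,
    dd_D g h1 hf, pj_mv, dd_inv (df_gn hg hu hw) hw, dd_gn hg hu hw, ev_Zf]
  have e1 : ev (nrm g u) x ⬝ᵥ dd f x ᵥ* Dm g (nrm g u) x = (gn g u x)⁻¹ *
      (Pj g u x *ᵥ dd f x) ⬝ᵥ mat (hess g u) x *ᵥ ev (nrm g u) x := by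
    rw [dotProduct_comm, ← dotProduct_mulVec, Dm_nrm hg hu hw, smul_mulVec, dotProduct_smul,
      ← mulVec_mulVec, dotProduct_mulVec, ← mulVec_transpose, pj_sy hg, smul_eq_mul]
  have e2 : trace (Pj g u x * mat (hess g f) x) = trace ((mat g x)⁻¹ * mat (hess g f) x) -
      ev (nrm g u) x ⬝ᵥ mat (hess g f) x *ᵥ ev (nrm g u) x := by
    rw [Pj, Matrix.sub_mul, trace_sub, tr_vv]
  simp only [trace_add, trace_sub, trace_smul, trace_vecMulVec, dotProduct_add, dotProduct_smul,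
    smul_dotProduct, smul_eq_mul, e1, e2, D]
  ring

theorem scal_eq (hg : Met g) (x : E n) : scal g x = trace ((mat g x)⁻¹ * mat (rc g) x) := by
  rw [← tr_eq hg, scal, tr, Finset.sum_comm]
  refine Finset.sum_congr rfl fun j _ => Finset.sum_congr rfl fun i _ => ?_
  rw [hg.up_sy i j, rc]
  congr 1
  have e : ∀ a b c, chr g a b c = chr g a c b := fun a b c => funext (hg.chr_sy a b c)
  simp only [Finset.sum_add_distrib, Finset.sum_sub_distrib, e _ i]
  congr 2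
  rw [Finset.sum_comm]
  exact Finset.sum_congr rfl fun k _ => Finset.sum_congr rfl fun l _ => by
    rw [e l j k]

theorem normSq_eq (hg : Met g) (hs : ∀ i j, K x i j = K x j i) : normSq g K x =
    trace ((mat g x)⁻¹ * (mat K x * ((mat g x)⁻¹ * mat K x))) := by
  simp only [normSq, trace, diag, mul_apply, Finset.mul_sum]
  rw [Finset.sum_comm_cycle]
  refine Finset.sum_congr rfl fun k _ => Finset.sum_congr rfl fun i _ =>
    Finset.sum_congr rfl fun j _ => Finset.sum_congr rfl fun l _ => ?_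
  rw [hg.up_sy i k, hs k l]
  simp only [up, mat]
  ring

end Vale.Agent.P366RY
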